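import Vale.Agent.P065.H277.MultCore
import Vale.Agent.P065.H930.Group
import Vale.Agent.P065.UB.H410.MultDefs

/-!
# P065, upper bound, line U: `StGroup` of helper410 from `MultCore.core` (helper277)
-/

set_option autoImplicit false

namespace Vale.Agent.P065.H277.Group

open Finset Vale.Agent.P065.UB Vale.Agent.P065.UB.RankAux Vale.Agent.P065.H183
open Vale.Agent.P065.UB.H415 (prj)

/-- slope of `b` from the point of `l0` above `z` -/
theorem sl_prj_line (m0 : ℝ) (c z b : Pt) (h : z.1 ≠ b.1) :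
    sl (prj m0 c z) b = m0 + (ht m0 b - ht m0 c) / (b.1 - z.1) := by
  have h1 : b.1 - z.1 ≠ 0 := sub_ne_zero.2 (Ne.symm h)
  unfold sl prj ht
  field_simp
  ring

/-- between -/
theorem btw {m0 d x1 x2 x3 : ℝ} {J : Set ℝ} (hJ : J.OrdConnected) (h0 : m0 ∉ J)
    (h12 : x1 < x2) (h23 : x2 < x3) (n1 : x1 ≠ 0) (n3 : x3 ≠ 0)
    (s1 : m0 + d / x1 ∈ J) (s3 : m0 + d / x3 ∈ J) : m0 + d / x2 ∈ J :=
  (H930.between hJ h0 h12.le h23.le n1 n3 s1 s3).2

/-- the four half-planes -/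
noncomputable def hp (c : Pt) (α β σ x y : ℝ) : ℕ → Set Pt := fun i =>
  if i = 0 then {p : Pt | σ * (c.2 - α * c.1) ≤ (-(σ * α)) * p.1 + σ * p.2}
  else if i = 1 then {p : Pt | (-(σ * β)) * p.1 + σ * p.2 ≤ σ * (c.2 - β * c.1)}
  else if i = 2 then {p : Pt | x ≤ 1 * p.1 + 0 * p.2}
  else {p : Pt | 1 * p.1 + 0 * p.2 ≤ y}

theorem hp_half (c : Pt) (α β σ x y : ℝ) (i : ℕ) : IsHalf (hp c α β σ x y i) := by
  unfold hp
  split_ifs
  · exact isHalf_ge _ _ _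
  · exact isHalf_le _ _ _
  · exact isHalf_ge _ _ _
  · exact isHalf_le _ _ _

theorem hp_all (c : Pt) (α β σ x y : ℝ) (p : Pt) :
    (∀ i ∈ Finset.range 4, p ∈ hp c α β σ x y i) ↔
      (0 ≤ σ * (p.2 - c.2 - α * (p.1 - c.1)) ∧
        σ * (p.2 - c.2 - β * (p.1 - c.1)) ≤ 0) ∧ x ≤ p.1 ∧ p.1 ≤ y := by
  have e1 : p ∈ hp c α β σ x y 0 ↔ 0 ≤ σ * (p.2 - c.2 - α * (p.1 - c.1)) := by
    unfold hp; simp only [if_true, Set.mem_ofPred_eq]
    constructor <;> intro h <;> nlinarith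
  have e2 : p ∈ hp c α β σ x y 1 ↔ σ * (p.2 - c.2 - β * (p.1 - c.1)) ≤ 0 := by
    unfold hp
    rw [if_neg (by norm_num), if_pos rfl, Set.mem_ofPred_eq]
    constructor <;> intro h <;> nlinarith
  have e3 : p ∈ hp c α β σ x y 2 ↔ x ≤ p.1 := by
    unfold hp
    rw [if_neg (by norm_num), if_neg (by norm_num), if_pos rfl, Set.mem_ofPred_eq]
    constructor <;> intro h <;> linarith
  have e4 : p ∈ hp c α β σ x y 3 ↔ p.1 ≤ y := by
    unfold hp
    rw [if_neg (by norm_num), if_neg (by norm_num), if_neg (by norm_num), Set.mem_ofPred_eq]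
    constructor <;> intro h <;> linarith
  rw [← e1, ← e2, ← e3, ← e4]
  constructor
  · intro h
    exact ⟨⟨h 0 (by simp), h 1 (by simp)⟩, h 2 (by simp), h 3 (by simp)⟩
  · rintro ⟨⟨h0, h1⟩, h2, h3⟩ i hi
    rw [Finset.mem_range] at hi
    interval_cases i <;> assumption

open Classical in
/-- STAR for a part of a sector cut by two vertical lines -/
theorem star_sec {K lam : ℝ} {Q : Finset Pt} {W : Finset ℕ} {I : ℕ → Set ℝ} {R : ℕ → Finset Pt}
    (hV : JView K lam Q W I R) (c : Pt) {J : Set ℝ} (hJ : J.OrdConnected) (σ u1 u2 : ℝ) :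
    lam * ∑ w ∈ W,
      (#(R w ∩ {p ∈ ({p ∈ Q | 0 < σ * (p.1 - c.1) ∧ sl c p ∈ J} : Finset Pt) |
        u1 ≤ p.1 ∧ p.1 ≤ u2}) : ℝ) ^ 3 ≤
      K * 125 * (#Q * (#{p ∈ ({p ∈ Q | 0 < σ * (p.1 - c.1) ∧ sl c p ∈ J} : Finset Pt) |
        u1 ≤ p.1 ∧ p.1 ≤ u2} : ℝ) ^ 2 + lam * (#Q : ℝ) ^ 2) := by
  have hK : 0 < K := by linarith [hV.two]
  have hl : 0 < lam := by linarith [hV.one]
  set Z : Finset Pt := {p ∈ ({p ∈ Q | 0 < σ * (p.1 - c.1) ∧ sl c p ∈ J} : Finset Pt) |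
        u1 ≤ p.1 ∧ p.1 ≤ u2} with hZ
  have hmem : ∀ p, p ∈ Z ↔ p ∈ Q ∧ (0 < σ * (p.1 - c.1) ∧ sl c p ∈ J) ∧ u1 ≤ p.1 ∧ p.1 ≤ u2 := by
    intro p
    rw [hZ, Finset.mem_filter, Finset.mem_filter, and_assoc]
  rcases Z.eq_empty_or_nonempty with hE | hne
  · rw [hE]
    simp only [Finset.inter_empty, Finset.card_empty, Nat.cast_zero]
    rw [Finset.sum_eq_zero (fun _ _ => by norm_num)]
    rw [mul_zero]
    positivity
  · obtain ⟨pa, hpa, hpa'⟩ := Z.exists_min_image (fun p => sl c p) hne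
    obtain ⟨pb, hpb, hpb'⟩ := Z.exists_max_image (fun p => sl c p) hne
    obtain ⟨px, hpx, hpx'⟩ := Z.exists_min_image (fun p => p.1) hne
    obtain ⟨py, hpy, hpy'⟩ := Z.exists_max_image (fun p => p.1) hne
    have hside : ∀ p : Pt, px.1 ≤ p.1 → p.1 ≤ py.1 → 0 < σ * (p.1 - c.1) := by
      intro p h1 h2
      have g1 := ((hmem px).1 hpx).2.1.1
      have g2 := ((hmem py).1 hpy).2.1.1
      rcases le_or_gt 0 σ with hs | hs
      · nlinarith
      · nlinarith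
    have hZ' : ∀ z, z ∈ Z ↔ z ∈ Q ∧
        ∀ i ∈ Finset.range 4, z ∈ hp c (sl c pa) (sl c pb) σ px.1 py.1 i := by
      intro z
      rw [hp_all]
      constructor
      · intro hz
        have h := (hmem z).1 hz
        exact ⟨h.1, ⟨(H930.sect_low h.2.1.1).1 (hpa' z hz), (H930.sect_up h.2.1.1).1 (hpb' z hz)⟩,
          hpx' z hz, hpy' z hz⟩
      · rintro ⟨h1, ⟨h2, h3⟩, h4, h5⟩
        have hs := hside z h4 h5
        rw [hmem]
        refine ⟨h1, ⟨hs, ?_⟩, ?_, ?_⟩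
        · exact hJ.out ((hmem pa).1 hpa).2.1.2 ((hmem pb).1 hpb).2.1.2
            ⟨(H930.sect_low hs).2 h2, (H930.sect_up hs).2 h3⟩
        · exact ((hmem px).1 hpx).2.2.1.trans h4
        · exact h5.trans ((hmem py).1 hpy).2.2.2
    have h := hV.star (Finset.range 4) (hp c (sl c pa) (sl c pb) σ px.1 py.1)
      (fun i _ => hp_half _ _ _ _ _ _ _) Z hZ'
    rw [Finset.card_range] at h
    norm_num at h
    exact h

/-- the numbers -/
theorem numbers {K lam L D q m : ℝ} (hK1 : 1 ≤ K) (hl0 : 0 < lam) (hL : 1 ≤ L) (hD : 1 ≤ D)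
    (hM0 : 0 < m) (hQ0 : 0 < q) (hQ : lam ^ 5 ≤ q) (hKM : K * L * D ^ 6 * q ≤ lam ^ 2 * m)
    {n : ℝ} (h2 : lam * (n * (m / D) ^ 3) ≤ K * 125 * (q * (D * m) ^ 2 + lam * q ^ 2)) :
    n ≤ 250 * lam / (L * D) := by
  have hK0 : 0 < K := by linarith
  have hL0 : 0 < L := by linarith
  have hD0 : 0 < D := by linarith
  have e1 : K * q * (D * m) ^ 2 * (L * D) * D ^ 3 ≤ lam ^ 2 * m ^ 3 := by
    calc K * q * (D * m) ^ 2 * (L * D) * D ^ 3 = (K * L * D ^ 6 * q) * m ^ 2 := by ring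
      _ ≤ (lam ^ 2 * m) * m ^ 2 := mul_le_mul_of_nonneg_right hKM (by positivity)
      _ = lam ^ 2 * m ^ 3 := by ring
  have e2 : K * lam * q ^ 2 * (L * D) * D ^ 3 ≤ lam ^ 2 * m ^ 3 := by
    have f1 : q ≤ lam ^ 2 * m := by
      have : q ≤ K * L * D ^ 6 * q := by
        have : 1 ≤ K * L * D ^ 6 :=
          one_le_mul_of_one_le_of_one_le (one_le_mul_of_one_le_of_one_le hK1 hL)
            (one_le_pow₀ hD (n := 6))
        nlinarith
      linarith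
    have f2 : K * L * D ^ 4 * q ≤ lam ^ 2 * m := by
      refine le_trans ?_ hKM
      have : D ^ 4 ≤ D ^ 6 := pow_le_pow_right₀ hD (by norm_num)
      have := mul_le_mul_of_nonneg_left this (show 0 ≤ K * L by positivity)
      exact mul_le_mul_of_nonneg_right this hQ0.le
    have f3 : (K * L * D ^ 4 * q) * (q * q) ≤ (lam ^ 2 * m) * ((lam ^ 2 * m) * (lam ^ 2 * m)) := by
      apply mul_le_mul f2 (mul_le_mul f1 f1 hQ0.le (by positivity)) (by positivity)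
        (by positivity)
    have f4 : lam ^ 5 * (K * lam * q ^ 2 * (L * D) * D ^ 3) ≤ lam ^ 5 * (lam ^ 2 * m ^ 3) := by
      calc lam ^ 5 * (K * lam * q ^ 2 * (L * D) * D ^ 3)
          ≤ q * (K * lam * q ^ 2 * (L * D) * D ^ 3) :=
            mul_le_mul_of_nonneg_right hQ (by positivity)
        _ = lam * ((K * L * D ^ 4 * q) * (q * q)) := by ring
        _ ≤ lam * ((lam ^ 2 * m) * ((lam ^ 2 * m) * (lam ^ 2 * m))) :=
            mul_le_mul_of_nonneg_left f3 hl0.le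
        _ = lam ^ 5 * (lam ^ 2 * m ^ 3) := by ring
    exact le_of_mul_le_mul_left f4 (by positivity)
  have e3 : n * (lam * m ^ 3 * (L * D)) ≤ 250 * lam * (lam * m ^ 3) := by
    have g1 : lam * (n * (m / D) ^ 3) * (D ^ 3 * (L * D)) = n * (lam * m ^ 3 * (L * D)) := by
      field_simp
    rw [← g1]
    calc lam * (n * (m / D) ^ 3) * (D ^ 3 * (L * D))
        ≤ K * 125 * (q * (D * m) ^ 2 + lam * q ^ 2) * (D ^ 3 * (L * D)) :=
          mul_le_mul_of_nonneg_right h2 (by positivity)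
      _ = 125 * (K * q * (D * m) ^ 2 * (L * D) * D ^ 3) +
          125 * (K * lam * q ^ 2 * (L * D) * D ^ 3) := by ring
      _ ≤ 125 * (lam ^ 2 * m ^ 3) + 125 * (lam ^ 2 * m ^ 3) := by linarith
      _ = 250 * lam * (lam * m ^ 3) := by ring
  rw [le_div_iff₀ (by positivity)]
  have g2 : n * (L * D) * (lam * m ^ 3) ≤ 250 * lam * (lam * m ^ 3) := by
    calc n * (L * D) * (lam * m ^ 3) = n * (lam * m ^ 3 * (L * D)) := by ring
      _ ≤ _ := e3
  exact le_of_mul_le_mul_right g2 (by positivity)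

open Classical in
/-- few rich windows of a thin part of a sector -/
theorem few_windows {K lam : ℝ} {Q : Finset Pt} {W : Finset ℕ} {I : ℕ → Set ℝ}
    {R : ℕ → Finset Pt} (hV : JView K lam Q W I R) (hQ : lam ^ 5 ≤ #Q) (c : Pt) {J : Set ℝ}
    (hJ : J.OrdConnected) (σ u1 u2 : ℝ) {L D : ℝ} {M : ℕ} (hL : 1 ≤ L) (hM : 1 ≤ M) (hD : 1 ≤ D)
    (hKM : K * L * D ^ 6 * #Q ≤ lam ^ 2 * M)
    (hZ : (#{p ∈ ({p ∈ Q | 0 < σ * (p.1 - c.1) ∧ sl c p ∈ J} : Finset Pt) |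
        u1 ≤ p.1 ∧ p.1 ≤ u2} : ℝ) ≤ D * M) :
    (#{w ∈ W | (M : ℝ) / D ≤
      #(R w ∩ {p ∈ ({p ∈ Q | 0 < σ * (p.1 - c.1) ∧ sl c p ∈ J} : Finset Pt) |
        u1 ≤ p.1 ∧ p.1 ≤ u2})} : ℝ) ≤ 250 * lam / (L * D) := by
  have hK1 : 1 ≤ K := by linarith [hV.two]
  have hK0 : 0 < K := by linarith
  have hl0 : 0 < lam := by linarith [hV.one]
  have hD0 : 0 < D := by linarith
  have hMr : (1 : ℝ) ≤ M := by exact_mod_cast hM
  have hM0 : (0 : ℝ) < M := by linarith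
  have hQ0 : (0 : ℝ) < #Q := lt_of_lt_of_le (by positivity) hQ
  have hs := star_sec hV c hJ σ u1 u2
  set Z : Finset Pt := {p ∈ ({p ∈ Q | 0 < σ * (p.1 - c.1) ∧ sl c p ∈ J} : Finset Pt) |
        u1 ≤ p.1 ∧ p.1 ≤ u2} with hZd
  set N : Finset ℕ := {w ∈ W | (M : ℝ) / D ≤ #(R w ∩ Z)} with hN
  have h1 : (#N : ℝ) * ((M : ℝ) / D) ^ 3 ≤ ∑ w ∈ W, (#(R w ∩ Z) : ℝ) ^ 3 := by
    calc (#N : ℝ) * ((M : ℝ) / D) ^ 3 = ∑ _w ∈ N, ((M : ℝ) / D) ^ 3 := by
          rw [Finset.sum_const, nsmul_eq_mul]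
      _ ≤ ∑ w ∈ N, (#(R w ∩ Z) : ℝ) ^ 3 := Finset.sum_le_sum (fun w hw =>
          pow_le_pow_left₀ (by positivity) (Finset.mem_filter.1 hw).2 3)
      _ ≤ _ := Finset.sum_le_sum_of_subset_of_nonneg (Finset.filter_subset _ _)
          (fun _ _ _ => by positivity)
  have h2 : lam * ((#N : ℝ) * ((M : ℝ) / D) ^ 3) ≤
      K * 125 * (#Q * (D * M) ^ 2 + lam * (#Q : ℝ) ^ 2) := by
    refine (mul_le_mul_of_nonneg_left h1 hl0.le).trans (hs.trans ?_)
    have : (#Z : ℝ) ^ 2 ≤ (D * M) ^ 2 := pow_le_pow_left₀ (by positivity) hZ 2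
    have := mul_le_mul_of_nonneg_left this hQ0.le
    apply mul_le_mul_of_nonneg_left _ (by positivity)
    linarith
  exact numbers hK1 hl0 hL hD hM0 hQ0 hQ hKM h2

open Classical in
theorem stGroup : Vale.Agent.P065.UB.H410.StGroup := by
  intro K lam Q W I R hV hQ c w0 m0 hw0 hm0 g A hg hside Pr Wd hPr L hL hLz M D hM hD hKM
  have hK0 : 0 < K := by linarith [hV.two]
  have hl1 := hV.one
  have hl0 : 0 < lam := by linarith
  have hL0 : 0 < L := by linarith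
  have hD0 : 0 < D := by linarith
  -- the side
  obtain ⟨σ, hσ⟩ : ∃ σ : ℝ, ∀ z ∈ g, 0 < σ * (z.1 - c.1) := by
    rcases hside with h | h
    · exact ⟨1, fun z hz => by have := h z hz; linarith⟩
    · exact ⟨-1, fun z hz => by have := h z hz; linarith⟩
  obtain ⟨Eg, hEg⟩ : ∃ Eg : Finset (Pt × Pt), Eg = Pr.image Prod.swap := ⟨_, rfl⟩
  have hEgm : ∀ b z, (b, z) ∈ Eg ↔ (z, b) ∈ Pr := by
    intro b z
    rw [hEg, Finset.mem_image]
    constructor
    · rintro ⟨⟨a, b'⟩, h, he⟩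
      simp only [Prod.swap_prod_mk, Prod.mk.injEq] at he
      rw [← he.1, ← he.2]; exact h
    · intro h
      exact ⟨(z, b), h, rfl⟩
  have key := Mult.core (ι := ℕ) g A
    ({p ∈ Q | 0 < σ * (p.1 - c.1) ∧ sl c p ∈ I w0} : Finset Pt) W R Eg (fun b z => Wd (z, b))
    (fun z hz z' hz' h => hV.xinj z (hg z hz).1 z' (hg z' hz').1 h)
    (fun z hz => Finset.mem_filter.2 ⟨(hg z hz).1, hσ z hz, (hg z hz).2⟩)
    (by
      rintro ⟨b, z⟩ he
      have h := hPr _ ((hEgm b z).1 he)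
      exact ⟨h.2.1, h.1, h.2.2.1, h.2.2.2.2.1⟩)
    (by
      intro b z1 z2 z3 h1 h2 h3 h12 h23 h13
      have p1 := hPr _ ((hEgm b z1).1 h1)
      have p2 := hPr _ ((hEgm b z2).1 h2)
      have p3 := hPr _ ((hEgm b z3).1 h3)
      simp only at p1 p2 p3 h13 ⊢
      obtain ⟨-, -, w1, n1, -, x1, s1⟩ := p1
      obtain ⟨-, -, w2, n2, -, x2, s2⟩ := p2
      obtain ⟨-, -, w3, n3, -, x3, s3⟩ := p3
      rw [← h13, sl_prj_line m0 c z3 b x3] at s3
      rw [sl_prj_line m0 c z1 b x1] at s1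
      rw [sl_prj_line m0 c z2 b x2] at s2
      have hnot : m0 ∉ I (Wd (z1, b)) := fun h =>
        Set.disjoint_left.1 (hV.disj _ w1 _ hw0 n1) h hm0
      have hb := btw (J := I (Wd (z1, b))) (m0 := m0) (d := ht m0 b - ht m0 c)
        (x1 := b.1 - z3.1) (x2 := b.1 - z2.1) (x3 := b.1 - z1.1) (hV.conn _ w1) hnot
        (by linarith) (by linarith) (sub_ne_zero.2 (Ne.symm x3)) (sub_ne_zero.2 (Ne.symm x1))
        s3 s1
      by_contra hne
      exact Set.disjoint_left.1 (hV.disj _ w2 _ w1 hne) s2 hb)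
    (M := M) (D := D) (B := 250 * lam / (L * D)) (κ := L * #A / lam)
    hM hD0 (by positivity) (by positivity)
    (by
      intro z hz w hw
      have h := hLz z hz w hw
      rw [le_div_iff₀ hl0, mul_comm]
      refine le_trans (mul_le_mul_of_nonneg_left ?_ hl0.le) h
      exact_mod_cast Finset.card_le_card (fun b hb => by
        simp only [Finset.mem_filter] at hb ⊢
        exact ⟨hb.1, (hEgm _ _).1 hb.2.1, hb.2.2⟩))
    (by
      intro u1 u2 hZ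
      exact few_windows hV hQ c (hV.conn w0 hw0) σ u1 u2 hL hM hD hKM hZ)
  -- conversion
  have hSecle : (#({p ∈ Q | 0 < σ * (p.1 - c.1) ∧ sl c p ∈ I w0} : Finset Pt) : ℝ) ≤
      #{p ∈ Q | sl c p ∈ I w0} := by
    exact_mod_cast Finset.card_le_card (fun p hp => by
      rw [Finset.mem_filter] at hp ⊢
      exact ⟨hp.1, hp.2.2⟩)
  have hBκ : D * (250 * lam / (L * D) * (L * #A / lam)) = 250 * #A := by
    field_simp
  refine le_trans (mul_le_mul_of_nonneg_left (le_trans ?_ key) hD0.le) ?_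
  · have : ∀ e ∈ Pr, M ≤ #{z ∈ g | (z, e.2) ∈ Pr ∧ Wd (z, e.2) = Wd e} →
        M ≤ #{z' ∈ g | ((e.swap).1, z') ∈ Eg ∧ Wd (z', (e.swap).1) = Wd ((e.swap).2, (e.swap).1)} := by
      rintro ⟨z, b⟩ he h2
      refine h2.trans (Finset.card_le_card (fun z' hz' => ?_))
      rw [Finset.mem_filter] at hz' ⊢
      exact ⟨hz'.1, (hEgm _ _).2 hz'.2.1, hz'.2.2⟩
    exact_mod_cast Finset.card_le_card_of_injOn Prod.swap (fun e he => by
      obtain ⟨h1, h2⟩ := Finset.mem_filter.1 he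
      exact Finset.mem_coe.2 (Finset.mem_filter.2 ⟨(hEgm _ _).2 h1, by
        convert this e h1 (by convert h2)⟩))
      (fun _ _ _ _ h => Prod.swap_injective h)
  · calc D * (3 * #A * #g / D +
          #A * #({p ∈ Q | 0 < σ * (p.1 - c.1) ∧ sl c p ∈ I w0} : Finset Pt) / D +
          #g * (250 * lam / (L * D) * (L * #A / lam)))
        = 3 * #A * #g + #A * #({p ∈ Q | 0 < σ * (p.1 - c.1) ∧ sl c p ∈ I w0} : Finset Pt) +
          #g * (D * (250 * lam / (L * D) * (L * #A / lam))) := by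
          rw [mul_add, mul_add, mul_div_cancel₀ _ hD0.ne', mul_div_cancel₀ _ hD0.ne']
          ring
      _ = (253 * #g + #({p ∈ Q | 0 < σ * (p.1 - c.1) ∧ sl c p ∈ I w0} : Finset Pt)) * #A := by
          rw [hBκ]; ring
      _ ≤ (253 * #g + #{p ∈ Q | sl c p ∈ I w0}) * #A := by
          apply mul_le_mul_of_nonneg_right _ (by positivity)
          linarith

end Vale.Agent.P065.H277.Group
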