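import Mathlib

/-!
# P065, upper bound, line U: LEMMA M of helper410 (19365), abstract per-group core (helper277)

A group `G` of points with distinct abscissas, leaves `A`, eligible pairs `Eg ⊆ A × G` with labels
`win b z` whose classes are connected (in the order of the abscissas) for every leaf `b`.
-/

set_option autoImplicit false

namespace Vale.Agent.P065.H277.Mult

open Finset

/-- number of points of `G` to the left of `z` -/
noncomputable def rk (G : Finset (ℝ × ℝ)) (z : ℝ × ℝ) : ℕ := by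
  classical exact #{z' ∈ G | z'.1 < z.1}

theorem rk_mono (G : Finset (ℝ × ℝ)) {z z' : ℝ × ℝ} (h : z.1 ≤ z'.1) : rk G z ≤ rk G z' := by
  classical
  unfold rk
  apply Finset.card_le_card
  intro p hp
  rw [Finset.mem_filter] at hp ⊢
  exact ⟨hp.1, lt_of_lt_of_le hp.2 h⟩

theorem rk_lt {G : Finset (ℝ × ℝ)} {z z' : ℝ × ℝ} (hz : z ∈ G) (h : z.1 < z'.1) :
    rk G z < rk G z' := by
  classical
  unfold rk
  apply Finset.card_lt_card
  rw [Finset.ssubset_iff_of_subset]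
  · exact ⟨z, Finset.mem_filter.2 ⟨hz, h⟩, fun h' => lt_irrefl _ (Finset.mem_filter.1 h').2⟩
  · intro p hp
    rw [Finset.mem_filter] at hp ⊢
    exact ⟨hp.1, hp.2.trans h⟩

theorem lt_of_rk {G : Finset (ℝ × ℝ)} {z z' : ℝ × ℝ} (h : rk G z < rk G z') : z.1 < z'.1 := by
  by_contra hc
  exact absurd (rk_mono G (not_lt.1 hc)) (not_le.2 h)

theorem rk_card {G : Finset (ℝ × ℝ)} {z : ℝ × ℝ} (hz : z ∈ G) : rk G z < #G := by
  classical
  unfold rk
  apply Finset.card_lt_card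
  rw [Finset.ssubset_iff_of_subset (Finset.filter_subset _ _)]
  exact ⟨z, hz, fun h' => lt_irrefl _ (Finset.mem_filter.1 h').2⟩

theorem rk_inj {G : Finset (ℝ × ℝ)} (hG : ∀ z ∈ G, ∀ z' ∈ G, z.1 = z'.1 → z = z') {z z' : ℝ × ℝ}
    (hz : z ∈ G) (hz' : z' ∈ G) (h : rk G z = rk G z') : z = z' := by
  rcases lt_trichotomy z.1 z'.1 with h1 | h1 | h1
  · exact absurd h (rk_lt hz h1).ne
  · exact hG z hz z' hz' h1
  · exact absurd h.symm (rk_lt hz' h1).ne

/-- index of the block of `M` consecutive points -/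
noncomputable def blk (G : Finset (ℝ × ℝ)) (M : ℕ) (z : ℝ × ℝ) : ℕ := rk G z / M

theorem lt_of_blk {G : Finset (ℝ × ℝ)} {M : ℕ} {z z' : ℝ × ℝ} (h : blk G M z < blk G M z') :
    z.1 < z'.1 := by
  apply lt_of_rk (G := G)
  by_contra hc
  exact absurd (Nat.div_le_div_right (c := M) (not_lt.1 hc)) (not_le.2 h)

open Classical in
theorem card_block {G : Finset (ℝ × ℝ)} (hG : ∀ z ∈ G, ∀ z' ∈ G, z.1 = z'.1 → z = z') {M : ℕ}
    (hM : 1 ≤ M) (i : ℕ) : #{z ∈ G | blk G M z = i} ≤ M := by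
  have h : ∀ z ∈ ({z ∈ G | blk G M z = i} : Finset (ℝ × ℝ)),
      rk G z ∈ Finset.Ico (i * M) (i * M + M) := by
    intro z hz
    rw [Finset.mem_filter] at hz
    have h1 := hz.2
    unfold blk at h1
    rw [Finset.mem_Ico]
    have h2 := Nat.div_add_mod (rk G z) M
    have h3 := Nat.mod_lt (rk G z) (show 0 < M by omega)
    rw [h1] at h2
    constructor
    · rw [mul_comm i M]; omega
    · rw [mul_comm i M]; omega
  have := Finset.card_le_card_of_injOn _ h (fun z hz z' hz' he =>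
    rk_inj hG (Finset.mem_filter.1 hz).1 (Finset.mem_filter.1 hz').1 he)
  simpa using this

theorem card_blocks {G : Finset (ℝ × ℝ)} (M : ℕ) :
    #(G.image (blk G M)) ≤ #G / M + 1 := by
  classical
  have : G.image (blk G M) ⊆ Finset.range (#G / M + 1) := by
    intro i hi
    rw [Finset.mem_image] at hi
    obtain ⟨z, hz, rfl⟩ := hi
    rw [Finset.mem_range, Nat.lt_succ_iff]
    exact Nat.div_le_div_right (rk_card hz).le
  simpa using Finset.card_le_card this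

open Classical in
/-- incidences (label, block) -/
theorem card_inc {ι : Type*} {G : Finset (ℝ × ℝ)}
    (hG : ∀ z ∈ G, ∀ z' ∈ G, z.1 = z'.1 → z = z') (M : ℕ) (E : Finset (ℝ × ℝ)) (hE : E ⊆ G)
    (lab : ℝ × ℝ → ι)
    (hconn : ∀ z1 ∈ E, ∀ z2 ∈ E, ∀ z3 ∈ E, z1.1 < z2.1 → z2.1 < z3.1 → lab z1 = lab z3 →
      lab z2 = lab z1)
    (L : Finset ι) (S : Finset (ℝ × ℝ)) (hS : S ⊆ E) (hL : ∀ z ∈ S, lab z ∈ L) :
    #(S.image (fun z => (lab z, blk G M z))) ≤ #L + #(G.image (blk G M)) := by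
  set Inc := S.image (fun z => (lab z, blk G M z)) with hInc
  set P : ι × ℕ → Prop := fun p => ∃ z0 ∈ E, lab z0 = p.1 ∧ blk G M z0 < p.2 with hP
  have hsplit : #{p ∈ Inc | P p} + #{p ∈ Inc | ¬ P p} = #Inc :=
    Finset.card_filter_add_card_filter_not (s := Inc) (p := P)
  have hmem : ∀ p ∈ Inc, ∃ z ∈ S, lab z = p.1 ∧ blk G M z = p.2 := by
    intro p hp
    rw [hInc, Finset.mem_image] at hp
    obtain ⟨z, hz, rfl⟩ := hp
    exact ⟨z, hz, rfl, rfl⟩
  have h1 : #{p ∈ Inc | P p} ≤ #(G.image (blk G M)) := by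
    apply Finset.card_le_card_of_injOn (fun p => p.2)
    · intro p hp
      obtain ⟨z, hz, -, h⟩ := hmem p (Finset.mem_filter.1 hp).1
      exact Finset.mem_coe.2 (Finset.mem_image.2 ⟨z, hE (hS hz), h⟩)
    · intro p hp p' hp' he
      simp only at he
      obtain ⟨hp1, z0, hz0, hz0l, hz0b⟩ := Finset.mem_filter.1 hp
      obtain ⟨hp1', z0', hz0', hz0l', hz0b'⟩ := Finset.mem_filter.1 hp'
      obtain ⟨z1, hz1, hz1l, hz1b⟩ := hmem p hp1
      obtain ⟨z1', hz1', hz1l', hz1b'⟩ := hmem p' hp1'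
      by_contra hne
      have hl : p.1 ≠ p'.1 := fun h => hne (Prod.ext h he)
      have hx : z0.1 ≠ z0'.1 := by
        intro h
        have := hG z0 (hE hz0) z0' (hE hz0') h
        rw [this] at hz0l
        exact hl (hz0l.symm.trans hz0l')
      rcases lt_or_gt_of_ne hx with h | h
      · have h2 : z0'.1 < z1.1 := lt_of_blk (G := G) (M := M) (by rw [hz1b, he]; exact hz0b')
        have h3 := hconn z0 hz0 z0' hz0' z1 (hS hz1) h h2 (hz0l.trans hz1l.symm)
        exact hl (hz0l.symm.trans (h3.symm.trans hz0l'))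
      · have h2 : z0.1 < z1'.1 := lt_of_blk (G := G) (M := M) (by rw [hz1b', ← he]; exact hz0b)
        have h3 := hconn z0' hz0' z0 hz0 z1' (hS hz1') h h2 (hz0l'.trans hz1l'.symm)
        exact hl (hz0l.symm.trans (h3.trans hz0l'))
  have h2 : #{p ∈ Inc | ¬ P p} ≤ #L := by
    apply Finset.card_le_card_of_injOn (fun p => p.1)
    · intro p hp
      obtain ⟨z, hz, h, -⟩ := hmem p (Finset.mem_filter.1 hp).1
      have := hL z hz
      rw [h] at this
      exact this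
    · intro p hp p' hp' he
      simp only at he
      obtain ⟨hp1, hpP⟩ := Finset.mem_filter.1 hp
      obtain ⟨hp1', hpP'⟩ := Finset.mem_filter.1 hp'
      obtain ⟨z1, hz1, hz1l, hz1b⟩ := hmem p hp1
      obtain ⟨z1', hz1', hz1l', hz1b'⟩ := hmem p' hp1'
      have a1 : ¬ p'.2 < p.2 := by
        intro h
        exact hpP ⟨z1', hS hz1', by rw [hz1l', he], by rw [hz1b']; exact h⟩
      have a2 : ¬ p.2 < p'.2 := by
        intro h
        exact hpP' ⟨z1, hS hz1, by rw [hz1l, he], by rw [hz1b]; exact h⟩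
      exact Prod.ext he (by omega)
  omega

open Classical in
/-- **first part**: pairs with a big label which is rare in its own block, one leaf -/
theorem part1 {ι : Type*} {G : Finset (ℝ × ℝ)}
    (hG : ∀ z ∈ G, ∀ z' ∈ G, z.1 = z'.1 → z = z') {M : ℕ} (hM : 1 ≤ M) {D : ℝ} (hD : 0 < D)
    (E : Finset (ℝ × ℝ)) (hE : E ⊆ G) (lab : ℝ × ℝ → ι)
    (hconn : ∀ z1 ∈ E, ∀ z2 ∈ E, ∀ z3 ∈ E, z1.1 < z2.1 → z2.1 < z3.1 → lab z1 = lab z3 →
      lab z2 = lab z1) :
    (#{z ∈ E | M ≤ #{z' ∈ E | lab z' = lab z} ∧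
      (#{z' ∈ E | lab z' = lab z ∧ blk G M z' = blk G M z} : ℝ) < M / D} : ℝ) ≤
      3 * #G / D := by
  set S : Finset (ℝ × ℝ) := {z ∈ E | M ≤ #{z' ∈ E | lab z' = lab z} ∧
      (#{z' ∈ E | lab z' = lab z ∧ blk G M z' = blk G M z} : ℝ) < M / D} with hS
  rcases S.eq_empty_or_nonempty with h0 | ⟨s0, hs0⟩
  · rw [h0]
    simp
    positivity
  have hMr : (0 : ℝ) < M := by exact_mod_cast hM
  have hSE : S ⊆ E := Finset.filter_subset _ _
  have hSd : ∀ z ∈ S, M ≤ #{z' ∈ E | lab z' = lab z} ∧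
      (#{z' ∈ E | lab z' = lab z ∧ blk G M z' = blk G M z} : ℝ) < M / D :=
    fun z hz => (Finset.mem_filter.1 hz).2
  -- big labels
  set L : Finset ι := S.image lab with hL
  have hLM : #L * M ≤ #G := by
    have h1 : ∀ w ∈ L, M ≤ #{z' ∈ E | lab z' = w} := by
      intro w hw
      rw [hL, Finset.mem_image] at hw
      obtain ⟨z, hz, rfl⟩ := hw
      exact (hSd z hz).1
    have h2 : #L * M ≤ ∑ w ∈ L, #{z' ∈ E | lab z' = w} := by
      rw [← smul_eq_mul]
      exact Finset.card_nsmul_le_sum _ _ _ h1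
    have h3 : ∑ w ∈ L, #{z' ∈ E | lab z' = w} ≤ #E := by
      rw [← Finset.card_biUnion]
      · apply Finset.card_le_card
        intro z hz
        rw [Finset.mem_biUnion] at hz
        obtain ⟨w, _, hz⟩ := hz
        exact (Finset.mem_filter.1 hz).1
      · intro w _ w' _ hne
        rw [Function.onFun, Finset.disjoint_left]
        intro z hz hz'
        exact hne ((Finset.mem_filter.1 hz).2.symm.trans (Finset.mem_filter.1 hz').2)
    exact h2.trans (h3.trans (Finset.card_le_card hE))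
  have hinc := card_inc hG M E hE lab hconn L S hSE (fun z hz => Finset.mem_image_of_mem _ hz)
  have hbl := card_blocks (G := G) M
  have hMG : M ≤ #G := ((hSd s0 hs0).1.trans (Finset.card_le_card (Finset.filter_subset _ _))).trans
    (Finset.card_le_card hE)
  -- count by incidences
  have hcount : (#S : ℝ) ≤ #(S.image (fun z => (lab z, blk G M z))) * (M / D) := by
    have h1 := Finset.card_eq_sum_card_image (fun z => (lab z, blk G M z)) S
    have h2 : (#S : ℝ) = ∑ p ∈ S.image (fun z => (lab z, blk G M z)),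
        (#{z ∈ S | (lab z, blk G M z) = p} : ℝ) := by
      rw [h1]
      push_cast
      rfl
    rw [h2, ← nsmul_eq_mul]
    apply Finset.sum_le_card_nsmul
    intro p hp
    rw [Finset.mem_image] at hp
    obtain ⟨z, hz, rfl⟩ := hp
    refine le_trans ?_ (hSd z hz).2.le
    have : ({z' ∈ S | (lab z', blk G M z') = (lab z, blk G M z)} : Finset (ℝ × ℝ)) ⊆
        {z' ∈ E | lab z' = lab z ∧ blk G M z' = blk G M z} := by
      intro z' hz'
      rw [Finset.mem_filter] at hz' ⊢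
      exact ⟨hSE hz'.1, (Prod.mk.inj hz'.2).1, (Prod.mk.inj hz'.2).2⟩
    exact_mod_cast Finset.card_le_card this
  have h5 : (#(S.image (fun z => (lab z, blk G M z))) : ℝ) ≤ 3 * #G / M := by
    have e1 : (#L : ℝ) ≤ #G / M := by
      rw [le_div_iff₀ hMr]
      exact_mod_cast hLM
    have e2 : (#(G.image (blk G M)) : ℝ) ≤ #G / M + 1 := by
      have : ((#G / M : ℕ) : ℝ) ≤ (#G : ℝ) / M := Nat.cast_div_le
      have e3 : (#(G.image (blk G M)) : ℝ) ≤ ((#G / M : ℕ) : ℝ) + 1 := by exact_mod_cast hbl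
      linarith
    have e4 : (1 : ℝ) ≤ #G / M := by
      rw [le_div_iff₀ hMr, one_mul]
      exact_mod_cast hMG
    have e5 : (#(S.image (fun z => (lab z, blk G M z))) : ℝ) ≤
        #L + #(G.image (blk G M)) := by exact_mod_cast hinc
    have e6 : 3 * (#G : ℝ) / M = #G / M + #G / M + #G / M := by ring
    linarith
  calc (#S : ℝ) ≤ #(S.image (fun z => (lab z, blk G M z))) * (M / D) := hcount
    _ ≤ 3 * #G / M * (M / D) := mul_le_mul_of_nonneg_right h5 (by positivity)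
    _ = 3 * #G / D := by field_simp

open Classical in
/-- the points of `Sec` in the range of abscissas of the block `i` -/
noncomputable def Zb (G Sec : Finset (ℝ × ℝ)) (M i : ℕ) : Finset (ℝ × ℝ) :=
  {p ∈ Sec | (∃ z ∈ G, blk G M z = i ∧ z.1 ≤ p.1) ∧ ∃ z ∈ G, blk G M z = i ∧ p.1 ≤ z.1}

open Classical in
theorem Zb_range {G Sec : Finset (ℝ × ℝ)} {M : ℕ} {z : ℝ × ℝ} (hz : z ∈ G) :
    ∃ u1 u2 : ℝ, Zb G Sec M (blk G M z) = {p ∈ Sec | u1 ≤ p.1 ∧ p.1 ≤ u2} := by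
  set Bz : Finset (ℝ × ℝ) := {z' ∈ G | blk G M z' = blk G M z} with hB
  have hne : Bz.Nonempty := ⟨z, Finset.mem_filter.2 ⟨hz, rfl⟩⟩
  obtain ⟨a, ha, hamin⟩ := Finset.exists_min_image Bz (fun p => p.1) hne
  obtain ⟨b, hb, hbmax⟩ := Finset.exists_max_image Bz (fun p => p.1) hne
  refine ⟨a.1, b.1, ?_⟩
  ext p
  unfold Zb
  rw [Finset.mem_filter, Finset.mem_filter]
  constructor
  · rintro ⟨hp, ⟨z1, hz1, h1, h1'⟩, ⟨z2, hz2, h2, h2'⟩⟩
    exact ⟨hp, (hamin z1 (Finset.mem_filter.2 ⟨hz1, h1⟩)).trans h1',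
      h2'.trans (hbmax z2 (Finset.mem_filter.2 ⟨hz2, h2⟩))⟩
  · rintro ⟨hp, h1, h2⟩
    rw [hB, Finset.mem_filter] at ha hb
    exact ⟨hp, ⟨a, ha.1, ha.2, h1⟩, ⟨b, hb.1, hb.2, h2⟩⟩

theorem Zb_disj {G Sec : Finset (ℝ × ℝ)} {M i j : ℕ} (hij : i ≠ j) :
    Disjoint (Zb G Sec M i) (Zb G Sec M j) := by
  classical
  have key : ∀ i j : ℕ, i < j → ∀ p, p ∈ Zb G Sec M i → p ∈ Zb G Sec M j → False := by
    intro i j hlt p hp hp'
    unfold Zb at hp hp'
    rw [Finset.mem_filter] at hp hp'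
    obtain ⟨_, _, z2, _, h2, h2'⟩ := hp
    obtain ⟨_, ⟨z1, _, h1, h1'⟩, _⟩ := hp'
    have := lt_of_blk (G := G) (M := M) (z := z2) (z' := z1) (by rw [h2, h1]; exact hlt)
    linarith
  rw [Finset.disjoint_left]
  intro p hp hp'
  rcases lt_or_gt_of_ne hij with h | h
  · exact key i j h p hp hp'
  · exact key j i h p hp' hp

open Classical in
/-- **second part**: the points in heavy blocks -/
theorem part2 {G Sec : Finset (ℝ × ℝ)}
    (hG : ∀ z ∈ G, ∀ z' ∈ G, z.1 = z'.1 → z = z') {M : ℕ} (hM : 1 ≤ M) {D : ℝ} (hD : 0 < D) :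
    (#{z ∈ G | D * M < (#(Zb G Sec M (blk G M z)) : ℝ)} : ℝ) ≤ #Sec / D := by
  have hMr : (0 : ℝ) < M := by exact_mod_cast hM
  set S : Finset (ℝ × ℝ) := {z ∈ G | D * M < (#(Zb G Sec M (blk G M z)) : ℝ)} with hS
  set H : Finset ℕ := S.image (blk G M) with hH
  have h1 : (#S : ℝ) ≤ #H * M := by
    have h2 := Finset.card_eq_sum_card_image (blk G M) S
    have h3 : #S ≤ #H * M := by
      rw [h2, ← smul_eq_mul]
      apply Finset.sum_le_card_nsmul
      intro i _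
      refine le_trans (Finset.card_le_card ?_) (card_block hG hM i)
      intro z hz
      rw [Finset.mem_filter] at hz ⊢
      exact ⟨(Finset.mem_filter.1 hz.1).1, hz.2⟩
    exact_mod_cast h3
  have h4 : #H * (D * M) ≤ (#Sec : ℝ) := by
    have h5 : #H * (D * M) ≤ ∑ i ∈ H, (#(Zb G Sec M i) : ℝ) := by
      rw [← nsmul_eq_mul]
      apply Finset.card_nsmul_le_sum
      intro i hi
      rw [hH, Finset.mem_image] at hi
      obtain ⟨z, hz, rfl⟩ := hi
      exact (Finset.mem_filter.1 hz).2.le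
    have h6 : ∑ i ∈ H, #(Zb G Sec M i) ≤ #Sec := by
      rw [← Finset.card_biUnion]
      · apply Finset.card_le_card
        intro p hp
        rw [Finset.mem_biUnion] at hp
        obtain ⟨i, _, hp⟩ := hp
        unfold Zb at hp
        exact (Finset.mem_filter.1 hp).1
      · intro i _ j _ hij
        exact Zb_disj hij
    have h7 : (∑ i ∈ H, (#(Zb G Sec M i) : ℝ)) ≤ #Sec := by exact_mod_cast h6
    exact h5.trans h7
  rw [le_div_iff₀ hD]
  calc (#S : ℝ) * D ≤ #H * M * D := mul_le_mul_of_nonneg_right h1 hD.le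
    _ = #H * (D * M) := by ring
    _ ≤ #Sec := h4

open Classical in
/-- **LEMMA M, per-group core** -/
theorem core {ι : Type*} (G A Sec : Finset (ℝ × ℝ)) (W : Finset ι) (R : ι → Finset (ℝ × ℝ))
    (Eg : Finset ((ℝ × ℝ) × (ℝ × ℝ))) (win : ℝ × ℝ → ℝ × ℝ → ι)
    (hG : ∀ z ∈ G, ∀ z' ∈ G, z.1 = z'.1 → z = z') (hGS : G ⊆ Sec)
    (hE : ∀ e ∈ Eg, e.1 ∈ A ∧ e.2 ∈ G ∧ win e.1 e.2 ∈ W ∧ e.2 ∈ R (win e.1 e.2))
    (hconn : ∀ b z1 z2 z3, (b, z1) ∈ Eg → (b, z2) ∈ Eg → (b, z3) ∈ Eg → z1.1 < z2.1 →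
      z2.1 < z3.1 → win b z1 = win b z3 → win b z2 = win b z1)
    {M : ℕ} {D B κ : ℝ} (hM : 1 ≤ M) (hD : 0 < D) (hB : 0 ≤ B) (hκ : 0 ≤ κ)
    (hA : ∀ z ∈ G, ∀ w ∈ W, (#{b ∈ A | (b, z) ∈ Eg ∧ win b z = w} : ℝ) ≤ κ)
    (hstar : ∀ u1 u2 : ℝ, (#{p ∈ Sec | u1 ≤ p.1 ∧ p.1 ≤ u2} : ℝ) ≤ D * M →
      (#{w ∈ W | (M : ℝ) / D ≤ #(R w ∩ {p ∈ Sec | u1 ≤ p.1 ∧ p.1 ≤ u2})} : ℝ) ≤ B) :
    (#{e ∈ Eg | M ≤ #{z' ∈ G | (e.1, z') ∈ Eg ∧ win e.1 z' = win e.1 e.2}} : ℝ) ≤
      3 * #A * #G / D + #A * #Sec / D + #G * (B * κ) := by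
  have hMr : (0 : ℝ) < M := by exact_mod_cast hM
  -- eligible points of a leaf
  set E : ℝ × ℝ → Finset (ℝ × ℝ) := fun b => {z ∈ G | (b, z) ∈ Eg} with hEdef
  have hEG : ∀ b, E b ⊆ G := fun b => Finset.filter_subset _ _
  have hEm : ∀ b z, z ∈ E b → (b, z) ∈ Eg := fun b z hz => (Finset.mem_filter.1 hz).2
  set P1 : ℝ × ℝ → Finset (ℝ × ℝ) := fun b =>
    {z ∈ E b | M ≤ #{z' ∈ E b | win b z' = win b z} ∧
      (#{z' ∈ E b | win b z' = win b z ∧ blk G M z' = blk G M z} : ℝ) < M / D} with hP1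
  set P2 : Finset (ℝ × ℝ) := {z ∈ G | D * M < (#(Zb G Sec M (blk G M z)) : ℝ)} with hP2
  set P3 : ℝ × ℝ → Finset (ℝ × ℝ) := fun z =>
    {b ∈ A | (b, z) ∈ Eg ∧ (#(Zb G Sec M (blk G M z)) : ℝ) ≤ D * M ∧
      (M : ℝ) / D ≤ #{z' ∈ E b | win b z' = win b z ∧ blk G M z' = blk G M z}} with hP3
  have c1 : ∀ b, (#(P1 b) : ℝ) ≤ 3 * #G / D := by
    intro b
    exact part1 hG hM hD (E b) (hEG b) (win b)
      (fun z1 h1 z2 h2 z3 h3 h12 h23 h13 =>
        hconn b z1 z2 z3 (hEm b z1 h1) (hEm b z2 h2) (hEm b z3 h3) h12 h23 h13)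
  have c2 : (#P2 : ℝ) ≤ #Sec / D := part2 hG hM hD
  have c3 : ∀ z ∈ G, (#(P3 z) : ℝ) ≤ B * κ := by
    intro z hz
    by_cases hl : (#(Zb G Sec M (blk G M z)) : ℝ) ≤ D * M
    · obtain ⟨u1, u2, hu⟩ := Zb_range (G := G) (Sec := Sec) (M := M) hz
      set Wz : Finset ι := {w ∈ W | (M : ℝ) / D ≤ #(R w ∩ Zb G Sec M (blk G M z))} with hWz
      have hWzB : (#Wz : ℝ) ≤ B := by
        have h1 := hstar u1 u2 (by rw [← hu]; exact hl)
        rw [← hu] at h1
        exact h1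
      have hsub : P3 z ⊆ Wz.biUnion (fun w => {b ∈ A | (b, z) ∈ Eg ∧ win b z = w}) := by
        intro b hb
        obtain ⟨hbA, hbE, _, hbl⟩ := Finset.mem_filter.1 hb
        rw [Finset.mem_biUnion]
        refine ⟨win b z, ?_, Finset.mem_filter.2 ⟨hbA, hbE, rfl⟩⟩
        rw [hWz, Finset.mem_filter]
        refine ⟨(hE _ hbE).2.2.1, hbl.trans ?_⟩
        have : ({z' ∈ E b | win b z' = win b z ∧ blk G M z' = blk G M z} : Finset (ℝ × ℝ)) ⊆
            R (win b z) ∩ Zb G Sec M (blk G M z) := by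
          intro z' hz'
          rw [Finset.mem_filter] at hz'
          obtain ⟨h1, h2, h3⟩ := hz'
          have h4 := hE _ (hEm b z' h1)
          rw [Finset.mem_inter]
          refine ⟨?_, ?_⟩
          · have h5 := h4.2.2.2
            simp only at h5
            rw [h2] at h5
            exact h5
          · unfold Zb
            rw [Finset.mem_filter]
            exact ⟨hGS (hEG b h1), ⟨z', hEG b h1, h3, le_refl _⟩, ⟨z', hEG b h1, h3, le_refl _⟩⟩
        exact_mod_cast Finset.card_le_card this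
      have h2 : (#(P3 z) : ℝ) ≤ ∑ w ∈ Wz, (#{b ∈ A | (b, z) ∈ Eg ∧ win b z = w} : ℝ) := by
        have := (Finset.card_le_card hsub).trans Finset.card_biUnion_le
        exact_mod_cast this
      have h3 : ∑ w ∈ Wz, (#{b ∈ A | (b, z) ∈ Eg ∧ win b z = w} : ℝ) ≤ #Wz * κ := by
        rw [← nsmul_eq_mul]
        apply Finset.sum_le_card_nsmul
        intro w hw
        exact hA z hz w (Finset.mem_filter.1 hw).1
      exact h2.trans (h3.trans (mul_le_mul_of_nonneg_right hWzB hκ))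
    · have : P3 z = ∅ := by
        apply Finset.filter_eq_empty_iff.2
        intro b _ h
        exact hl h.2.1
      rw [this]
      simpa using mul_nonneg hB hκ
  have hsub : ({e ∈ Eg | M ≤ #{z' ∈ G | (e.1, z') ∈ Eg ∧ win e.1 z' = win e.1 e.2}} :
      Finset ((ℝ × ℝ) × (ℝ × ℝ))) ⊆
      (A.biUnion (fun b => (P1 b).image (fun z => (b, z))) ∪ A ×ˢ P2) ∪
        G.biUnion (fun z => (P3 z).image (fun b => (b, z))) := by
    intro e he
    rw [Finset.mem_filter] at he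
    obtain ⟨heE, heM⟩ := he
    obtain ⟨h1, h2, h3, h4⟩ := hE e heE
    have hcls : ({z' ∈ G | (e.1, z') ∈ Eg ∧ win e.1 z' = win e.1 e.2} : Finset (ℝ × ℝ)) =
        {z' ∈ E e.1 | win e.1 z' = win e.1 e.2} := by
      rw [hEdef, Finset.filter_filter]
    rw [hcls] at heM
    have hmemE : e.2 ∈ E e.1 := Finset.mem_filter.2 ⟨h2, heE⟩
    rw [Finset.mem_union, Finset.mem_union]
    by_cases hheavy : D * M < (#(Zb G Sec M (blk G M e.2)) : ℝ)
    · left; right
      exact Finset.mem_product.2 ⟨h1, Finset.mem_filter.2 ⟨h2, hheavy⟩⟩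
    by_cases hloc : (#{z' ∈ E e.1 | win e.1 z' = win e.1 e.2 ∧ blk G M z' = blk G M e.2} : ℝ) <
        M / D
    · left; left
      rw [Finset.mem_biUnion]
      exact ⟨e.1, h1, Finset.mem_image.2 ⟨e.2, Finset.mem_filter.2 ⟨hmemE, heM, hloc⟩, rfl⟩⟩
    · right
      rw [Finset.mem_biUnion]
      exact ⟨e.2, h2, Finset.mem_image.2 ⟨e.1, Finset.mem_filter.2
        ⟨h1, heE, not_lt.1 hheavy, not_lt.1 hloc⟩, rfl⟩⟩
  have hc := (Finset.card_le_card hsub).trans ((Finset.card_union_le _ _).trans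
    (Nat.add_le_add_right (Finset.card_union_le _ _) _))
  have d1 : (#(A.biUnion (fun b => (P1 b).image (fun z => (b, z)))) : ℝ) ≤ #A * (3 * #G / D) := by
    have h1 : #(A.biUnion (fun b => (P1 b).image (fun z => (b, z)))) ≤ ∑ b ∈ A, #(P1 b) :=
      Finset.card_biUnion_le.trans (Finset.sum_le_sum fun b _ => Finset.card_image_le)
    have h2 : (#(A.biUnion (fun b => (P1 b).image (fun z => (b, z)))) : ℝ) ≤
        ∑ b ∈ A, (#(P1 b) : ℝ) := by exact_mod_cast h1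
    refine h2.trans ?_
    rw [← nsmul_eq_mul]
    exact Finset.sum_le_card_nsmul _ _ _ (fun b _ => c1 b)
  have d2 : (#(A ×ˢ P2) : ℝ) ≤ #A * (#Sec / D) := by
    rw [Finset.card_product]
    push_cast
    exact mul_le_mul_of_nonneg_left c2 (Nat.cast_nonneg _)
  have d3 : (#(G.biUnion (fun z => (P3 z).image (fun b => (b, z)))) : ℝ) ≤ #G * (B * κ) := by
    have h1 : #(G.biUnion (fun z => (P3 z).image (fun b => (b, z)))) ≤ ∑ z ∈ G, #(P3 z) :=
      Finset.card_biUnion_le.trans (Finset.sum_le_sum fun z _ => Finset.card_image_le)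
    have h2 : (#(G.biUnion (fun z => (P3 z).image (fun b => (b, z)))) : ℝ) ≤
        ∑ z ∈ G, (#(P3 z) : ℝ) := by exact_mod_cast h1
    refine h2.trans ?_
    rw [← nsmul_eq_mul]
    exact Finset.sum_le_card_nsmul _ _ _ (fun z hz => c3 z hz)
  have hc' : (#{e ∈ Eg | M ≤ #{z' ∈ G | (e.1, z') ∈ Eg ∧ win e.1 z' = win e.1 e.2}} : ℝ) ≤
      #(A.biUnion (fun b => (P1 b).image (fun z => (b, z)))) + #(A ×ˢ P2) +
        #(G.biUnion (fun z => (P3 z).image (fun b => (b, z)))) := by exact_mod_cast hc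
  have e1 : (#A : ℝ) * (3 * #G / D) = 3 * #A * #G / D := by ring
  have e2 : (#A : ℝ) * (#Sec / D) = #A * #Sec / D := by ring
  linarith

end Vale.Agent.P065.H277.Mult
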