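import Mathlib

/-!
# P065, upper bound, line P: THIRD POINT (helper728 18511 (6)) and NC-x for points (7), abstract form

`W` is a finite set of windows; window `w` has a slope `a w` and a height `c w`; the slopes are
`δ`-separated.  `T w` is a set of points near the line `v = a w * u + c w`, spread in `u`.
-/

set_option autoImplicit false

namespace Vale.Agent.P065.H277

open Finset

/-- a `δ`-separated family of reals has at most `ℓ / δ + 1` members in an interval of length `ℓ` -/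
theorem card_sep {ι : Type*} (S : Finset ι) (a : ι → ℝ) {δ lo ℓ : ℝ} (hδ : 0 < δ) (hℓ : 0 ≤ ℓ)
    (hsep : ∀ w ∈ S, ∀ w' ∈ S, w ≠ w' → δ ≤ |a w - a w'|)
    (hin : ∀ w ∈ S, lo ≤ a w ∧ a w ≤ lo + ℓ) : (#S : ℝ) ≤ ℓ / δ + 1 := by
  classical
  have hq : 0 ≤ ℓ / δ := div_nonneg hℓ hδ.le
  have hmaps : ∀ w ∈ S, ⌊(a w - lo) / δ⌋₊ ∈ Finset.range (⌊ℓ / δ⌋₊ + 1) := by
    intro w hw
    obtain ⟨h1, h2⟩ := hin w hw
    rw [Finset.mem_range, Nat.lt_succ_iff]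
    exact Nat.floor_mono (div_le_div_of_nonneg_right (by linarith) hδ.le)
  have hinj : ∀ w ∈ S, ∀ w' ∈ S, ⌊(a w - lo) / δ⌋₊ = ⌊(a w' - lo) / δ⌋₊ → w = w' := by
    intro w hw w' hw' he
    by_contra hne
    have h1 : 0 ≤ (a w - lo) / δ := div_nonneg (by linarith [(hin w hw).1]) hδ.le
    have h1' : 0 ≤ (a w' - lo) / δ := div_nonneg (by linarith [(hin w' hw').1]) hδ.le
    have h2 := Nat.floor_le h1
    have h2' := Nat.floor_le h1'
    have h3 := Nat.lt_floor_add_one ((a w - lo) / δ)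
    have h3' := Nat.lt_floor_add_one ((a w' - lo) / δ)
    have h4 : |(a w - lo) / δ - (a w' - lo) / δ| < 1 := by
      rw [abs_lt]
      rw [he] at h2 h3
      constructor <;> linarith
    have h5 : (a w - lo) / δ - (a w' - lo) / δ = (a w - a w') / δ := by ring
    rw [h5, abs_div, abs_of_pos hδ, div_lt_one hδ] at h4
    exact absurd (hsep w hw w' hw' hne) (not_le.2 h4)
  have hcard := Finset.card_le_card_of_injOn _ hmaps (fun w hw w' hw' h => hinj w hw w' hw' h)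
  rw [Finset.card_range] at hcard
  have h6 : (#S : ℝ) ≤ (⌊ℓ / δ⌋₊ : ℝ) + 1 := by exact_mod_cast hcard
  have h7 := Nat.floor_le hq
  linarith

/-- **far pairs**: two points whose abscissas differ by at least `s` lie together in the
`r`-neighbourhoods of few windows -/
theorem far_pair {ι : Type*} (W : Finset ι) (a c : ι → ℝ) {δ s r r' : ℝ} (hδ : 0 < δ) (hs : 0 < s)
    (hr : 0 ≤ r) (hr' : 0 ≤ r')
    (hsep : ∀ w ∈ W, ∀ w' ∈ W, w ≠ w' → δ ≤ |a w - a w'|) (x p : ℝ × ℝ)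
    (hfar : s ≤ |p.1 - x.1|) (S : Finset ι) (hS : S ⊆ W)
    (hx : ∀ w ∈ S, |x.2 - a w * x.1 - c w| ≤ r) (hp : ∀ w ∈ S, |p.2 - a w * p.1 - c w| ≤ r') :
    (#S : ℝ) ≤ 2 * (r + r') / (s * δ) + 1 := by
  have hd : 0 < |p.1 - x.1| := lt_of_lt_of_le hs hfar
  have hd0 : p.1 - x.1 ≠ 0 := by
    intro h; rw [h, abs_zero] at hd; exact lt_irrefl _ hd
  have key : ∀ w ∈ S, |a w - (p.2 - x.2) / (p.1 - x.1)| ≤ (r + r') / s := by
    intro w hw
    have h1 := hx w hw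
    have h2 := hp w hw
    have h3 : (a w - (p.2 - x.2) / (p.1 - x.1)) * (p.1 - x.1)
        = (x.2 - a w * x.1 - c w) - (p.2 - a w * p.1 - c w) := by
      field_simp
      ring
    have h4 : |a w - (p.2 - x.2) / (p.1 - x.1)| * |p.1 - x.1| ≤ r + r' := by
      rw [← abs_mul, h3]
      exact (abs_sub _ _).trans (add_le_add h1 h2)
    rw [le_div_iff₀ hs]
    exact (mul_le_mul_of_nonneg_left hfar (abs_nonneg _)).trans h4
  have h := card_sep S a (lo := (p.2 - x.2) / (p.1 - x.1) - (r + r') / s)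
    (ℓ := 2 * ((r + r') / s)) hδ (by positivity)
    (fun w hw w' hw' => hsep w (hS hw) w' (hS hw'))
    (fun w hw => by
      have := abs_le.1 (key w hw)
      constructor <;> linarith [this.1, this.2])
  calc (#S : ℝ) ≤ 2 * ((r + r') / s) / δ + 1 := h
    _ = 2 * (r + r') / (s * δ) + 1 := by
      congr 1
      field_simp

open Classical in
/-- **THIRD POINT** (6): a point `x` lies in the `r`-neighbourhoods of few windows.  `m` is a lower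
bound for the number of points of `T w` at distance `≥ s` (abscissas) from `x`. -/
theorem third_point {ι : Type*} (W : Finset ι) (a c : ι → ℝ) (T : ι → Finset (ℝ × ℝ))
    (Q : Finset (ℝ × ℝ)) {δ s r r' m : ℝ} (hδ : 0 < δ) (hs : 0 < s) (hr : 0 ≤ r) (hr' : 0 ≤ r')
    (hsep : ∀ w ∈ W, ∀ w' ∈ W, w ≠ w' → δ ≤ |a w - a w'|) (hT : ∀ w ∈ W, T w ⊆ Q)
    (hnear : ∀ w ∈ W, ∀ p ∈ T w, |p.2 - a w * p.1 - c w| ≤ r')
    (x : ℝ × ℝ) (hm : ∀ w ∈ W, |x.2 - a w * x.1 - c w| ≤ r →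
      m ≤ #{p ∈ T w | s ≤ |p.1 - x.1|}) :
    (#{w ∈ W | |x.2 - a w * x.1 - c w| ≤ r} : ℝ) * m
      ≤ #Q * (2 * (r + r') / (s * δ) + 1) := by
  set W' := {w ∈ W | |x.2 - a w * x.1 - c w| ≤ r} with hW'
  have hW'W : ∀ w ∈ W', w ∈ W ∧ |x.2 - a w * x.1 - c w| ≤ r := by
    intro w hw; simpa [hW'] using hw
  have h1 : (#W' : ℝ) * m ≤ ∑ w ∈ W', (#{p ∈ T w | s ≤ |p.1 - x.1|} : ℝ) := by
    rw [← nsmul_eq_mul]
    exact Finset.card_nsmul_le_sum _ _ _ (fun w hw => hm w (hW'W w hw).1 (hW'W w hw).2)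
  have h2 : ∑ w ∈ W', (#{p ∈ T w | s ≤ |p.1 - x.1|} : ℝ)
      = ∑ p ∈ Q, (#{w ∈ W' | p ∈ T w ∧ s ≤ |p.1 - x.1|} : ℝ) := by
    have h3 : ∀ w ∈ W', (#{p ∈ T w | s ≤ |p.1 - x.1|} : ℝ)
        = ∑ p ∈ Q, if (p ∈ T w ∧ s ≤ |p.1 - x.1|) then (1 : ℝ) else 0 := by
      intro w hw
      rw [Finset.sum_boole]
      congr 1
      congr 1
      ext p
      simp only [Finset.mem_filter]
      exact ⟨fun h => ⟨hT w (hW'W w hw).1 h.1, h⟩, fun h => h.2⟩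
    rw [Finset.sum_congr rfl h3, Finset.sum_comm]
    refine Finset.sum_congr rfl fun p _ => ?_
    rw [Finset.sum_boole]
  have h4 : ∀ p ∈ Q, (#{w ∈ W' | p ∈ T w ∧ s ≤ |p.1 - x.1|} : ℝ)
      ≤ 2 * (r + r') / (s * δ) + 1 := by
    intro p _
    by_cases hfar : s ≤ |p.1 - x.1|
    · refine far_pair W a c hδ hs hr hr' hsep x p hfar _ ?_ ?_ ?_
      · intro w hw
        exact (hW'W w (Finset.mem_filter.1 hw).1).1
      · intro w hw
        exact (hW'W w (Finset.mem_filter.1 hw).1).2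
      · intro w hw
        exact hnear w (hW'W w (Finset.mem_filter.1 hw).1).1 p (Finset.mem_filter.1 hw).2.1
    · have : {w ∈ W' | p ∈ T w ∧ s ≤ |p.1 - x.1|} = ∅ := by
        apply Finset.filter_eq_empty_iff.2
        intro w _ h
        exact hfar h.2
      rw [this]
      have : 0 ≤ 2 * (r + r') / (s * δ) := by positivity
      simp
      linarith
  calc (#W' : ℝ) * m ≤ ∑ p ∈ Q, (#{w ∈ W' | p ∈ T w ∧ s ≤ |p.1 - x.1|} : ℝ) := by
        rw [← h2]; exact h1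
    _ ≤ ∑ p ∈ Q, (2 * (r + r') / (s * δ) + 1) := Finset.sum_le_sum h4
    _ = #Q * (2 * (r + r') / (s * δ) + 1) := by rw [Finset.sum_const, nsmul_eq_mul]

open Classical in
/-- Cauchy–Schwarz for an incidence structure: `Φ² ≤ #W · (far pairs + near pairs)` -/
theorem cs_pairs {ι : Type*} (W : Finset ι) (a c : ι → ℝ) (T : ι → Finset (ℝ × ℝ))
    (Y : Finset (ℝ × ℝ)) {δ s r' n : ℝ} (hδ : 0 < δ) (hs : 0 < s) (hr' : 0 ≤ r')
    (hsep : ∀ w ∈ W, ∀ w' ∈ W, w ≠ w' → δ ≤ |a w - a w'|)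
    (hnear : ∀ w ∈ W, ∀ p ∈ T w, |p.2 - a w * p.1 - c w| ≤ r')
    (hn : ∀ w ∈ W, ∀ q ∈ T w, (#{p ∈ T w | |p.1 - q.1| < s} : ℝ) ≤ n) :
    (∑ w ∈ W, (#(T w ∩ Y) : ℝ)) ^ 2
      ≤ #W * ((#Y : ℝ) ^ 2 * (2 * (r' + r') / (s * δ) + 1) + n * ∑ w ∈ W, (#(T w ∩ Y) : ℝ)) := by
  have h0 : (∑ w ∈ W, (#(T w ∩ Y) : ℝ)) ^ 2 ≤ #W * ∑ w ∈ W, (#(T w ∩ Y) : ℝ) ^ 2 :=
    sq_sum_le_card_mul_sum_sq
  refine h0.trans (mul_le_mul_of_nonneg_left ?_ (by positivity))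
  -- split the pairs
  have h1 : ∀ w ∈ W, (#(T w ∩ Y) : ℝ) ^ 2
      ≤ (#{e ∈ Y ×ˢ Y | (e.1 ∈ T w ∧ e.2 ∈ T w) ∧ s ≤ |e.2.1 - e.1.1|} : ℝ)
        + n * (#(T w ∩ Y) : ℝ) := by
    intro w hw
    have e1 : (#(T w ∩ Y) : ℝ) ^ 2 = #((T w ∩ Y) ×ˢ (T w ∩ Y)) := by
      rw [Finset.card_product]; push_cast; ring
    have e2 : (T w ∩ Y) ×ˢ (T w ∩ Y) ⊆
        {e ∈ Y ×ˢ Y | (e.1 ∈ T w ∧ e.2 ∈ T w) ∧ s ≤ |e.2.1 - e.1.1|} ∪
        (T w ∩ Y).biUnion (fun q => ({p ∈ T w | |p.1 - q.1| < s}).image (fun p => (q, p))) := by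
      intro e he
      rw [Finset.mem_product, Finset.mem_inter, Finset.mem_inter] at he
      rw [Finset.mem_union]
      by_cases hf : s ≤ |e.2.1 - e.1.1|
      · left
        rw [Finset.mem_filter, Finset.mem_product]
        exact ⟨⟨he.1.2, he.2.2⟩, ⟨he.1.1, he.2.1⟩, hf⟩
      · right
        rw [Finset.mem_biUnion]
        refine ⟨e.1, Finset.mem_inter.2 he.1, ?_⟩
        rw [Finset.mem_image]
        exact ⟨e.2, Finset.mem_filter.2 ⟨he.2.1, not_le.1 hf⟩, rfl⟩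
    have e3 := Finset.card_le_card e2
    have e4 := e3.trans (Finset.card_union_le _ _)
    have e5 : (#((T w ∩ Y).biUnion
        (fun q => ({p ∈ T w | |p.1 - q.1| < s}).image (fun p => (q, p)))) : ℝ)
        ≤ n * #(T w ∩ Y) := by
      have : (#((T w ∩ Y).biUnion
          (fun q => ({p ∈ T w | |p.1 - q.1| < s}).image (fun p => (q, p)))) : ℝ)
          ≤ ∑ q ∈ T w ∩ Y, (#({p ∈ T w | |p.1 - q.1| < s}) : ℝ) := by
        have h6 : #((T w ∩ Y).biUnion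
          (fun q => ({p ∈ T w | |p.1 - q.1| < s}).image (fun p => (q, p))))
          ≤ ∑ q ∈ T w ∩ Y, #({p ∈ T w | |p.1 - q.1| < s}) :=
          Finset.card_biUnion_le.trans (Finset.sum_le_sum fun q _ => Finset.card_image_le)
        exact_mod_cast h6
      refine this.trans ?_
      calc ∑ q ∈ T w ∩ Y, (#({p ∈ T w | |p.1 - q.1| < s}) : ℝ) ≤ ∑ q ∈ T w ∩ Y, n :=
            Finset.sum_le_sum fun q hq => hn w hw q (Finset.mem_inter.1 hq).1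
        _ = n * #(T w ∩ Y) := by rw [Finset.sum_const, nsmul_eq_mul]; ring
    rw [e1]
    have e6 : (#((T w ∩ Y) ×ˢ (T w ∩ Y)) : ℝ) ≤
        #{e ∈ Y ×ˢ Y | (e.1 ∈ T w ∧ e.2 ∈ T w) ∧ s ≤ |e.2.1 - e.1.1|} +
        #((T w ∩ Y).biUnion
          (fun q => ({p ∈ T w | |p.1 - q.1| < s}).image (fun p => (q, p)))) := by
      exact_mod_cast e4
    linarith
  have h2 : ∑ w ∈ W, (#{e ∈ Y ×ˢ Y | (e.1 ∈ T w ∧ e.2 ∈ T w) ∧ s ≤ |e.2.1 - e.1.1|} : ℝ)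
      ≤ (#Y : ℝ) ^ 2 * (2 * (r' + r') / (s * δ) + 1) := by
    have h3 : ∀ w ∈ W, (#{e ∈ Y ×ˢ Y | (e.1 ∈ T w ∧ e.2 ∈ T w) ∧ s ≤ |e.2.1 - e.1.1|} : ℝ)
        = ∑ e ∈ Y ×ˢ Y,
          if ((e.1 ∈ T w ∧ e.2 ∈ T w) ∧ s ≤ |e.2.1 - e.1.1|) then (1 : ℝ) else 0 := by
      intro w _
      rw [Finset.sum_boole]
    rw [Finset.sum_congr rfl h3, Finset.sum_comm]
    have h4 : ∀ e ∈ Y ×ˢ Y, (∑ w ∈ W,
        if ((e.1 ∈ T w ∧ e.2 ∈ T w) ∧ s ≤ |e.2.1 - e.1.1|) then (1 : ℝ) else 0)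
        ≤ 2 * (r' + r') / (s * δ) + 1 := by
      intro e _
      rw [Finset.sum_boole]
      by_cases hfar : s ≤ |e.2.1 - e.1.1|
      · refine far_pair W a c hδ hs hr' hr' hsep e.1 e.2 hfar _ (Finset.filter_subset _ _) ?_ ?_
        · intro w hw
          rw [Finset.mem_filter] at hw
          exact hnear w hw.1 _ hw.2.1.1
        · intro w hw
          rw [Finset.mem_filter] at hw
          exact hnear w hw.1 _ hw.2.1.2
      · have : {w ∈ W | (e.1 ∈ T w ∧ e.2 ∈ T w) ∧ s ≤ |e.2.1 - e.1.1|} = ∅ := by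
          apply Finset.filter_eq_empty_iff.2
          intro w _ h
          exact hfar h.2
        rw [this]
        have : 0 ≤ 2 * (r' + r') / (s * δ) := by positivity
        simp
        linarith
    calc _ ≤ ∑ e ∈ Y ×ˢ Y, (2 * (r' + r') / (s * δ) + 1) := Finset.sum_le_sum h4
      _ = _ := by rw [Finset.sum_const, nsmul_eq_mul, Finset.card_product]; push_cast; ring
  calc ∑ w ∈ W, (#(T w ∩ Y) : ℝ) ^ 2
      ≤ ∑ w ∈ W, ((#{e ∈ Y ×ˢ Y | (e.1 ∈ T w ∧ e.2 ∈ T w) ∧ s ≤ |e.2.1 - e.1.1|} : ℝ)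
        + n * (#(T w ∩ Y) : ℝ)) := Finset.sum_le_sum h1
    _ = ∑ w ∈ W, (#{e ∈ Y ×ˢ Y | (e.1 ∈ T w ∧ e.2 ∈ T w) ∧ s ≤ |e.2.1 - e.1.1|} : ℝ)
        + n * ∑ w ∈ W, (#(T w ∩ Y) : ℝ) := by rw [Finset.sum_add_distrib, Finset.mul_sum]
    _ ≤ _ := by linarith

open Classical in
/-- **NC-x for points** (7): all but few points `q` have at most `2 D` of their windows in any time
interval of length `ℓ`. -/
theorem ncx {ι : Type*} (W : Finset ι) (a c : ι → ℝ) (T : ι → Finset (ℝ × ℝ))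
    (Q : Finset (ℝ × ℝ)) {δ s r' n ℓ M D : ℝ} (hδ : 0 < δ) (hs : 0 < s) (hr' : 0 ≤ r')
    (hℓ : 0 < ℓ) (hn0 : 0 ≤ n) (hD : 0 < D)
    (hsep : ∀ w ∈ W, ∀ w' ∈ W, w ≠ w' → δ ≤ |a w - a w'|)
    (hnear : ∀ w ∈ W, ∀ p ∈ T w, |p.2 - a w * p.1 - c w| ≤ r')
    (hn : ∀ w ∈ W, ∀ q ∈ T w, (#{p ∈ T w | |p.1 - q.1| < s} : ℝ) ≤ n)
    (hM : ∀ t : ℝ, (#{w ∈ W | t ≤ a w ∧ a w ≤ t + ℓ} : ℝ) ≤ M)
    (hDM : 2 * M * (4 * r' / (s * δ) + 1) < D ^ 2) :
    ∃ X ⊆ Q, D * #X ≤ 2 * n * #W ∧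
      ∀ q ∈ Q, q ∉ X → ∀ t : ℝ, (#{w ∈ W | q ∈ T w ∧ t ≤ a w ∧ a w ≤ t + ℓ} : ℝ) ≤ 2 * D := by
  set gr : ι → ℤ := fun w => ⌊a w / ℓ⌋ with hgr
  set G : Finset ℤ := W.image gr with hG
  set Wg : ℤ → Finset ι := fun g => {w ∈ W | gr w = g} with hWg
  set Qg : ℤ → Finset (ℝ × ℝ) := fun g => {q ∈ Q | D < (#{w ∈ Wg g | q ∈ T w} : ℝ)} with hQg
  have hF : 0 ≤ 4 * r' / (s * δ) + 1 := by positivity
  -- every class is short
  have hWgM : ∀ g, (#(Wg g) : ℝ) ≤ M := by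
    intro g
    refine le_trans ?_ (hM ((g : ℝ) * ℓ))
    have : Wg g ⊆ {w ∈ W | (g : ℝ) * ℓ ≤ a w ∧ a w ≤ (g : ℝ) * ℓ + ℓ} := by
      intro w hw
      simp only [hWg, hgr, Finset.mem_filter] at hw
      rw [Finset.mem_filter]
      have h1 := Int.floor_le (a w / ℓ)
      have h2 := Int.lt_floor_add_one (a w / ℓ)
      rw [hw.2] at h1 h2
      rw [le_div_iff₀ hℓ] at h1
      rw [div_lt_iff₀ hℓ] at h2
      exact ⟨hw.1, h1, by linarith⟩
    exact_mod_cast Finset.card_le_card this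
  -- the estimate for a class
  have hcls : ∀ g, D * #(Qg g) ≤ 2 * n * #(Wg g) := by
    intro g
    set Φ : ℝ := ∑ w ∈ Wg g, (#(T w ∩ Qg g) : ℝ) with hΦ
    have hWsub : Wg g ⊆ W := Finset.filter_subset _ _
    have hcs := cs_pairs (Wg g) a c T (Qg g) hδ hs hr'
      (fun w hw w' hw' => hsep w (hWsub hw) w' (hWsub hw'))
      (fun w hw => hnear w (hWsub hw)) (fun w hw => hn w (hWsub hw))
    rw [← hΦ] at hcs
    have hΦD : D * #(Qg g) ≤ Φ := by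
      have h1 : Φ = ∑ q ∈ Qg g, (#{w ∈ Wg g | q ∈ T w} : ℝ) := by
        have h3 : ∀ w ∈ Wg g, (#(T w ∩ Qg g) : ℝ)
            = ∑ q ∈ Qg g, if q ∈ T w then (1 : ℝ) else 0 := by
          intro w _
          rw [Finset.sum_boole]
          congr 2
          ext q
          rw [Finset.mem_inter, Finset.mem_filter (s := Qg g)]
          tauto
        rw [hΦ, Finset.sum_congr rfl h3, Finset.sum_comm]
        refine Finset.sum_congr rfl fun q _ => ?_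
        rw [Finset.sum_boole]
      rw [h1]
      calc D * #(Qg g) = ∑ q ∈ Qg g, D := by rw [Finset.sum_const, nsmul_eq_mul]; ring
        _ ≤ _ := Finset.sum_le_sum fun q hq => by
            have := (Finset.mem_filter.1 hq).2
            exact this.le
    have hΦ0 : 0 ≤ Φ := by
      rw [hΦ]; exact Finset.sum_nonneg fun _ _ => by positivity
    have hrr : 2 * (r' + r') / (s * δ) + 1 = 4 * r' / (s * δ) + 1 := by ring
    rw [hrr] at hcs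
    set F := 4 * r' / (s * δ) + 1 with hFdef
    rcases Nat.eq_zero_or_pos (#(Qg g)) with h0 | hpos
    · rw [h0]
      simp
      positivity
    have hpos' : (0 : ℝ) < #(Qg g) := by exact_mod_cast hpos
    have hΦpos : 0 < Φ := lt_of_lt_of_le (by positivity) hΦD
    by_contra hcon
    push Not at hcon
    -- `2 n #W_g < D #Q_g ≤ Φ`
    have h2 : 2 * n * #(Wg g) < Φ := lt_of_lt_of_le hcon hΦD
    -- so the near part is `< Φ² / 2`
    have h3 : #(Wg g) * (n * Φ) < Φ ^ 2 / 2 := by nlinarith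
    have h4 : Φ ^ 2 / 2 < #(Wg g) * ((#(Qg g) : ℝ) ^ 2 * F) := by nlinarith
    have h5 : #(Wg g) * ((#(Qg g) : ℝ) ^ 2 * F) ≤ M * ((#(Qg g) : ℝ) ^ 2 * F) :=
      mul_le_mul_of_nonneg_right (hWgM g) (by positivity)
    have h6 : (D * #(Qg g)) ^ 2 ≤ Φ ^ 2 := pow_le_pow_left₀ (by positivity) hΦD 2
    have h7 : D ^ 2 * (#(Qg g) : ℝ) ^ 2 < 2 * M * F * (#(Qg g) : ℝ) ^ 2 := by nlinarith
    have h8 : D ^ 2 < 2 * M * F := lt_of_mul_lt_mul_right h7 (by positivity)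
    linarith
  refine ⟨G.biUnion Qg, ?_, ?_, ?_⟩
  · intro q hq
    rw [Finset.mem_biUnion] at hq
    obtain ⟨g, _, hq⟩ := hq
    exact (Finset.mem_filter.1 hq).1
  · have h1 : (#(G.biUnion Qg) : ℝ) ≤ ∑ g ∈ G, (#(Qg g) : ℝ) := by
      exact_mod_cast Finset.card_biUnion_le
    have h2 : ∑ g ∈ G, (#(Wg g) : ℝ) = #W := by
      have := Finset.card_eq_sum_card_image gr W
      rw [this]
      push_cast
      rfl
    calc D * #(G.biUnion Qg) ≤ D * ∑ g ∈ G, (#(Qg g) : ℝ) :=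
          mul_le_mul_of_nonneg_left h1 hD.le
      _ = ∑ g ∈ G, D * #(Qg g) := Finset.mul_sum _ _ _
      _ ≤ ∑ g ∈ G, 2 * n * #(Wg g) := Finset.sum_le_sum fun g _ => hcls g
      _ = 2 * n * #W := by rw [← Finset.mul_sum, h2]
  · intro q hq hqX t
    have hbd : ∀ g, (#{w ∈ Wg g | q ∈ T w} : ℝ) ≤ D := by
      intro g
      by_cases hg : g ∈ G
      · by_contra hcon
        push Not at hcon
        exact hqX (Finset.mem_biUnion.2 ⟨g, hg, Finset.mem_filter.2 ⟨hq, hcon⟩⟩)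
      · have : Wg g = ∅ := by
          apply Finset.filter_eq_empty_iff.2
          intro w hw h
          exact hg (Finset.mem_image.2 ⟨w, hw, h⟩)
        rw [this]
        simpa using hD.le
    have hsub : {w ∈ W | q ∈ T w ∧ t ≤ a w ∧ a w ≤ t + ℓ} ⊆
        {w ∈ Wg ⌊t / ℓ⌋ | q ∈ T w} ∪ {w ∈ Wg (⌊t / ℓ⌋ + 1) | q ∈ T w} := by
      intro w hw
      rw [Finset.mem_filter] at hw
      obtain ⟨hwW, hqT, h1, h2⟩ := hw
      rw [Finset.mem_union, Finset.mem_filter, Finset.mem_filter]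
      simp only [hWg, hgr, Finset.mem_filter]
      have e1 : t / ℓ ≤ a w / ℓ := div_le_div_of_nonneg_right h1 hℓ.le
      have e2 : a w / ℓ ≤ t / ℓ + 1 := by
        rw [div_add_one hℓ.ne']
        exact div_le_div_of_nonneg_right h2 hℓ.le
      have e3 : ⌊t / ℓ⌋ ≤ ⌊a w / ℓ⌋ := Int.floor_mono e1
      have e4 : ⌊a w / ℓ⌋ ≤ ⌊t / ℓ⌋ + 1 := by
        have := Int.floor_mono e2
        rwa [Int.floor_add_one] at this
      rcases e3.eq_or_lt with h | h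
      · left; exact ⟨⟨hwW, h.symm⟩, hqT⟩
      · right; exact ⟨⟨hwW, by omega⟩, hqT⟩
    have h3 := (Finset.card_le_card hsub).trans (Finset.card_union_le _ _)
    have h4 : (#{w ∈ W | q ∈ T w ∧ t ≤ a w ∧ a w ≤ t + ℓ} : ℝ) ≤
        (#{w ∈ Wg ⌊t / ℓ⌋ | q ∈ T w} : ℝ) + #{w ∈ Wg (⌊t / ℓ⌋ + 1) | q ∈ T w} := by
      exact_mod_cast h3
    linarith [hbd ⌊t / ℓ⌋, hbd (⌊t / ℓ⌋ + 1)]

end Vale.Agent.P065.H277
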