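import Vale.Agent.P065.UB.P.Defs
import Vale.Agent.P065.U.H792.DeyY
import Vale.Agent.P065.H277.Third

/-! # P065, upper bound, line P: `StS67` (third point, NC-x, active points) -/

set_option autoImplicit false

namespace Vale.Agent.P065.H277

open Finset Vale.Agent.P065.UB Vale.Agent.P065.UB.P

/-- `NW2` is monotone in `K` -/
theorem nw2_mono {K K' k3 Kp ks Kpp lam N del : ℝ} {P : Finset Pt} {k : ℕ} {Q : Finset Pt}
    {W : Finset ℕ} {a b be : ℕ → ℝ} {T : ℕ → Finset Pt} (hKK : K ≤ K') (hlam : 0 ≤ lam)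
    (h : NW2 K k3 Kp ks Kpp lam N del P k Q W a b be T) :
    NW2 K' k3 Kp ks Kpp lam N del P k Q W a b be T := by
  have hN : 0 ≤ N := (Nat.cast_nonneg _).trans h.cardQ
  refine { h with
    cardW := ?_, cardW' := ?_, tch := ?_, bd := ?_, glob := ?_, cardT' := ?_, edT := ?_ }
  · exact h.cardW.trans (mul_le_mul_of_nonneg_right hKK (by positivity))
  · exact h.cardW'.trans (mul_le_mul_of_nonneg_right hKK (by positivity))
  · exact fun w hw => (h.tch w hw).trans (mul_le_mul_of_nonneg_right hKK hN)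
  · exact fun w hw => (h.bd w hw).trans (mul_le_mul_of_nonneg_right hKK hN)
  · exact h.glob.trans (mul_le_mul_of_nonneg_right hKK (by positivity))
  · exact fun w hw => (h.cardT' w hw).trans (mul_le_mul_of_nonneg_right hKK (by positivity))
  · exact fun w hw => (h.edT w hw).trans (mul_le_mul_of_nonneg_right hKK (by positivity))

/-- the slopes of the windows are `del`-separated -/
theorem nw2_sep {K k3 Kp ks Kpp lam N del : ℝ} {P : Finset Pt} {k : ℕ} {Q : Finset Pt}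
    {W : Finset ℕ} {a b be : ℕ → ℝ} {T : ℕ → Finset Pt}
    (h : NW2 K k3 Kp ks Kpp lam N del P k Q W a b be T) :
    ∀ w ∈ W, ∀ w' ∈ W, w ≠ w' → del ≤ |a w - a w'| := by
  intro w hw w' hw' hne
  rcases h.disj w hw w' hw' hne with h1 | h1
  · have := (h.len w hw).1
    rw [abs_sub_comm]
    exact le_trans (by linarith) (le_abs_self _)
  · have := (h.len w' hw').1
    exact le_trans (by linarith) (le_abs_self _)

theorem nw2_subQ {K k3 Kp ks Kpp lam N del : ℝ} {P : Finset Pt} {k : ℕ} {Q : Finset Pt}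
    {W : Finset ℕ} {a b be : ℕ → ℝ} {T : ℕ → Finset Pt}
    (h : NW2 K k3 Kp ks Kpp lam N del P k Q W a b be T) : ∀ w ∈ W, T w ⊆ Q := by
  classical
  intro w hw p hp
  have := h.subT w hw hp
  unfold Tch at this
  exact (Finset.mem_filter.1 this).1

theorem nw2_near {K k3 Kp ks Kpp lam N del : ℝ} {P : Finset Pt} {k : ℕ} {Q : Finset Pt}
    {W : Finset ℕ} {a b be : ℕ → ℝ} {T : ℕ → Finset Pt}
    (h : NW2 K k3 Kp ks Kpp lam N del P k Q W a b be T) :
    ∀ w ∈ W, ∀ p ∈ T w, |p.2 - a w * p.1 - be w| ≤ 2 * del := by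
  intro w hw p hp
  have := h.tube w hw p hp
  unfold ht at this
  have hd := h.del0
  rw [abs_le]
  constructor <;> linarith [this.1, this.2]

open Classical in
/-- few points of `T w` near a given abscissa -/
theorem nw2_few {K k3 Kp ks Kpp lam N del : ℝ} {P : Finset Pt} {k : ℕ} {Q : Finset Pt}
    {W : Finset ℕ} {a b be : ℕ → ℝ} {T : ℕ → Finset Pt} (hlam : 0 < lam) (hKp : 0 < Kp)
    (h : NW2 K k3 Kp ks Kpp lam N del P k Q W a b be T) :
    ∀ w ∈ W, ∀ x : ℝ, (#{p ∈ T w | |p.1 - x| < 1 / (2 * Kp)} : ℝ) ≤ k3 * N / lam := by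
  intro w hw x
  have h1 := h.spT w hw (x - 1 / (2 * Kp))
  have h2 : {p ∈ T w | |p.1 - x| < 1 / (2 * Kp)} ⊆
      {p ∈ T w | x - 1 / (2 * Kp) ≤ p.1 ∧ p.1 ≤ x - 1 / (2 * Kp) + 1 / Kp} := by
    intro p hp
    rw [Finset.mem_filter] at hp ⊢
    have h3 := abs_lt.1 hp.2
    have h4 : 1 / Kp = 1 / (2 * Kp) + 1 / (2 * Kp) := by field_simp; norm_num
    refine ⟨hp.1, by linarith [h3.1], by rw [h4]; linarith [h3.2]⟩
  have h5 : (#{p ∈ T w | |p.1 - x| < 1 / (2 * Kp)} : ℝ) ≤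
      #{p ∈ T w | x - 1 / (2 * Kp) ≤ p.1 ∧ p.1 ≤ x - 1 / (2 * Kp) + 1 / Kp} := by
    exact_mod_cast Finset.card_le_card h2
  rw [le_div_iff₀ hlam]
  nlinarith

open Classical in
/-- the field `third` -/
theorem third_field {K k3 Kp ks Kpp lam N del : ℝ} {P : Finset Pt} {k : ℕ} {Q : Finset Pt}
    {W : Finset ℕ} {a b be : ℕ → ℝ} {T : ℕ → Finset Pt} (hK : 2 ≤ K) (hlam : 0 < lam)
    (hN : 0 < N) (hk3 : 2 * K * k3 ≤ 1) (hKp : 26 * K ≤ Kp)
    (h : NW2 K k3 Kp ks Kpp lam N del P k Q W a b be T) :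
    ∀ x : Pt, 0 ≤ x.1 → x.1 ≤ 1 → ∀ ρ : ℝ, 1 ≤ ρ →
    (#{w ∈ W | be w - ρ * del ≤ ht (a w) x ∧ ht (a w) x ≤ be w + ρ * del} : ℝ) ≤
      ρ * Kp ^ 2 * lam := by
  intro x _ _ ρ hρ
  have hd := h.del0
  have hKp0 : 0 < Kp := by linarith
  have hs : 0 < 1 / (2 * Kp) := by positivity
  have hm : ∀ w ∈ W, |x.2 - a w * x.1 - be w| ≤ ρ * del →
      N / (2 * K * lam) ≤ #{p ∈ T w | 1 / (2 * Kp) ≤ |p.1 - x.1|} := by
    intro w hw _
    have h1 := h.cardT' w hw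
    have h2 := nw2_few hlam hKp0 h w hw x.1
    have h3 := Finset.card_filter_add_card_filter_not (s := T w)
      (p := fun p => |p.1 - x.1| < 1 / (2 * Kp))
    have h4 : (#(T w) : ℝ) = #{p ∈ T w | |p.1 - x.1| < 1 / (2 * Kp)} +
        #{p ∈ T w | 1 / (2 * Kp) ≤ |p.1 - x.1|} := by
      have h5 : ({p ∈ T w | ¬ |p.1 - x.1| < 1 / (2 * Kp)} : Finset Pt) =
          {p ∈ T w | 1 / (2 * Kp) ≤ |p.1 - x.1|} := by
        apply Finset.filter_congr
        intro p _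
        rw [not_lt]
      rw [h5] at h3
      exact_mod_cast h3.symm
    have h6 : N / (K * lam) ≤ #(T w) := by
      rw [div_le_iff₀ (by positivity)]
      nlinarith
    have h7 : k3 * N / lam ≤ N / (2 * K * lam) := by
      rw [div_le_div_iff₀ hlam (by positivity)]
      have : (2 * K * k3) * (N * lam) ≤ 1 * (N * lam) :=
        mul_le_mul_of_nonneg_right hk3 (by positivity)
      nlinarith
    have h8 : N / (K * lam) = N / (2 * K * lam) + N / (2 * K * lam) := by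
      field_simp
      norm_num
    linarith
  have key := third_point W a be T Q hd hs (r := ρ * del) (r' := 2 * del) (by positivity)
    (by positivity) (nw2_sep h) (nw2_subQ h) (nw2_near h) x hm
  have hset : ({w ∈ W | be w - ρ * del ≤ ht (a w) x ∧ ht (a w) x ≤ be w + ρ * del} : Finset ℕ) =
      {w ∈ W | |x.2 - a w * x.1 - be w| ≤ ρ * del} := by
    apply Finset.filter_congr
    intro w _
    unfold ht
    rw [abs_le]
    constructor
    · rintro ⟨h1, h2⟩; constructor <;> linarith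
    · rintro ⟨h1, h2⟩; constructor <;> linarith
  rw [hset]
  have hF : 2 * (ρ * del + 2 * del) / (1 / (2 * Kp) * del) + 1 = 4 * Kp * (ρ + 2) + 1 := by
    field_simp
    ring
  rw [hF] at key
  set n : ℝ := (#{w ∈ W | |x.2 - a w * x.1 - be w| ≤ ρ * del} : ℝ) with hn
  have h1 : n * (N / (2 * K * lam)) ≤ N * (13 * ρ * Kp) := by
    refine key.trans (mul_le_mul h.cardQ ?_ (by positivity) hN.le)
    nlinarith
  have h2 : n ≤ 26 * K * lam * ρ * Kp := by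
    have h3 : n * (N / (2 * K * lam)) = n / (2 * K * lam) * N := by ring
    rw [h3] at h1
    have h4 : n / (2 * K * lam) ≤ 13 * ρ * Kp := by
      have : n / (2 * K * lam) * N ≤ (13 * ρ * Kp) * N := by linarith
      exact le_of_mul_le_mul_right this hN
    rw [div_le_iff₀ (by positivity)] at h4
    nlinarith
  calc n ≤ 26 * K * lam * ρ * Kp := h2
    _ = (26 * K) * (lam * ρ * Kp) := by ring
    _ ≤ Kp * (lam * ρ * Kp) := mul_le_mul_of_nonneg_right hKp (by positivity)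
    _ = ρ * Kp ^ 2 * lam := by ring

/-- `deyY` in cubic form -/
theorem deyY3 (P : Finset Pt) (k : ℕ) (Q : Finset Pt) (I : Set ℝ) (hP : Good P) (hQ : Q ⊆ P)
    (hI : I.OrdConnected) (Y : Finset Pt) (hY : Y ⊆ Tch P k Q I) {B y t M : ℝ}
    (hB : (#(Tch P k Q I) : ℝ) + #(EdBd P k Q I) ≤ B) (hy : (#Y : ℝ) ≤ y)
    (ht : (#(Tch P k Q I) : ℝ) ≤ t) (hM : 0 ≤ M) (hBM : B ≤ M) (h3 : B ^ 2 * (y * t) ≤ M ^ 3) :
    (#(U.H792.EdY P k Q I Y) : ℝ) ≤ 212 * M := by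
  have h := U.H792.deyY P k Q I hP hQ hI Y hY
  set B0 : ℝ := ((#(Tch P k Q I) + #(EdBd P k Q I) : ℕ) : ℝ) with hB0
  have hB0' : B0 ≤ B := by rw [hB0]; push_cast; exact hB
  have hB00 : 0 ≤ B0 := Nat.cast_nonneg _
  set z : ℝ := (#Y : ℝ) * #(Tch P k Q I) with hz
  have hz0 : 0 ≤ z := by positivity
  have hzy : z ≤ y * t := mul_le_mul hy ht (Nat.cast_nonneg _) ((Nat.cast_nonneg _).trans hy)
  have h1 : B0 ^ (2 / 3 : ℝ) * z ^ (1 / 3 : ℝ) ≤ M := by
    have e1 : B0 ^ (2 / 3 : ℝ) = (B0 ^ 2) ^ (1 / 3 : ℝ) := by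
      rw [← Real.rpow_natCast, ← Real.rpow_mul hB00]
      norm_num
    rw [e1, ← Real.mul_rpow (by positivity) hz0]
    have e2 : B0 ^ 2 * z ≤ M ^ 3 := by
      refine le_trans (mul_le_mul (pow_le_pow_left₀ hB00 hB0' 2) hzy hz0 (by positivity)) h3
    calc (B0 ^ 2 * z) ^ (1 / 3 : ℝ) ≤ (M ^ 3) ^ (1 / 3 : ℝ) :=
          Real.rpow_le_rpow (by positivity) e2 (by norm_num)
      _ = M := by
          rw [← Real.rpow_natCast, ← Real.rpow_mul hM]
          norm_num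
  calc (#(U.H792.EdY P k Q I Y) : ℝ) ≤ 106 * (B0 ^ (2 / 3 : ℝ) * z ^ (1 / 3 : ℝ) + B0) := h
    _ ≤ 106 * (M + M) := by
        apply mul_le_mul_of_nonneg_left _ (by norm_num)
        linarith
    _ = 212 * M := by ring

theorem e0_cube {N lam : ℝ} (hN : 0 < N) (hlam : 0 < lam) :
    ((N / lam) ^ (4 / 3 : ℝ)) ^ 3 = (N / lam) ^ 4 := by
  rw [← Real.rpow_natCast, ← Real.rpow_mul (by positivity), ← Real.rpow_natCast]
  norm_num

open Classical in
/-- the edges lost by deleting the points of `X` from all the windows are different edges of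
`EdY P k Q univ` -/
theorem lostX {K k3 Kp ks Kpp lam N del : ℝ} {P : Finset Pt} {k : ℕ} {Q : Finset Pt}
    {W : Finset ℕ} {a b be : ℕ → ℝ} {T : ℕ → Finset Pt}
    (h : NW2 K k3 Kp ks Kpp lam N del P k Q W a b be T) (X : Finset Pt) :
    ∑ w ∈ W, #{e ∈ ET P k Q a b T w | e.1 ∈ X ∨ e.2 ∈ X} ≤
      #(U.H792.EdY P k Q Set.univ (X ∩ Tch P k Q Set.univ)) := by
  have hmem : ∀ w ∈ W, ∀ e ∈ ET P k Q a b T w, e ∈ Ed P k ∧ e.1 ∈ Q ∧ e.2 ∈ Q ∧
      sl e.1 e.2 ∈ Set.Icc (a w) (b w) := by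
    intro w _ e he
    unfold ET EW EdIn at he
    simp only [Finset.mem_filter] at he
    exact he.1
  rw [← Finset.card_biUnion]
  · apply Finset.card_le_card
    intro e he
    rw [Finset.mem_biUnion] at he
    obtain ⟨w, hw, he⟩ := he
    rw [Finset.mem_filter] at he
    obtain ⟨h1, h2, h3, h4⟩ := hmem w hw e he.1
    have hin : e ∈ EdIn P k Q Set.univ := by
      simp only [EdIn, Finset.mem_filter]
      exact ⟨h1, h2, h3, Set.mem_univ _⟩
    have ht := U.H792.edIn_tch e hin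
    rw [U.H792.mem_EdY]
    refine ⟨hin, ?_⟩
    rcases he.2 with h5 | h5
    · left; exact Finset.mem_inter.2 ⟨h5, ht.1⟩
    · right; exact Finset.mem_inter.2 ⟨h5, ht.2⟩
  · intro w hw w' hw' hne
    rw [Function.onFun, Finset.disjoint_left]
    intro e he he'
    rw [Finset.mem_filter] at he he'
    obtain ⟨_, _, _, h4⟩ := hmem w hw e he.1
    obtain ⟨_, _, _, h4'⟩ := hmem w' hw' e he'.1
    rw [Set.mem_Icc] at h4 h4'
    rcases h.disj w hw w' hw' hne with h5 | h5 <;> linarith [h4.1, h4.2, h4'.1, h4'.2]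

/-- the Markov step: few windows lose much -/
theorem markov {W : Finset ℕ} (f : ℕ → ℝ) (hf : ∀ w ∈ W, 0 ≤ f w) {θ S : ℝ}
    (hS : ∑ w ∈ W, f w ≤ S) (W' : Finset ℕ) (hW' : W' ⊆ W) (h : ∀ w ∈ W', θ ≤ f w) :
    (#W' : ℝ) * θ ≤ S := by
  rw [← nsmul_eq_mul]
  refine (Finset.card_nsmul_le_sum W' f _ h).trans (le_trans ?_ hS)
  exact Finset.sum_le_sum_of_subset_of_nonneg hW' (fun w hw _ => hf w hw)

/-- arithmetic for `X` -/
theorem arithX {K k4 lam N e0 : ℝ} (hK : 2 ≤ K) (h16 : 16 * K ^ 45 * k4 ≤ 1) (hk4 : 0 < k4)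
    (hlam : 0 < lam) (hN : 0 < N) (hNlam : 8 * K ^ 45 * lam ≤ N) (he0 : 0 < e0)
    (he03 : e0 ^ 3 = (N / lam) ^ 4) :
    2 * K * lam * N ≤ lam ^ 2 * e0 / K ^ 14 ∧
    (2 * K * lam * N) ^ 2 * (4 * K * k4 * N * N) ≤ (lam ^ 2 * e0 / K ^ 14) ^ 3 ∧
    212 * (lam ^ 2 * e0 / K ^ 14) ≤ lam ^ 2 / (4 * K) * (e0 / (4 * K)) := by
  have hK0 : 0 < K := by linarith
  refine ⟨?_, ?_, ?_⟩
  · rw [← pow_le_pow_iff_left₀ (by positivity) (by positivity) (three_ne_zero)]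
    have e1 : (lam ^ 2 * e0 / K ^ 14) ^ 3 = lam ^ 2 * N ^ 3 / K ^ 42 * N := by
      rw [div_pow, mul_pow, he03]
      field_simp
    have e2 : (2 * K * lam * N) ^ 3 = lam ^ 2 * N ^ 3 / K ^ 42 * (8 * K ^ 45 * lam) := by
      field_simp
      norm_num
    rw [e1, e2]
    exact mul_le_mul_of_nonneg_left hNlam (by positivity)
  · have e1 : (lam ^ 2 * e0 / K ^ 14) ^ 3 = lam ^ 2 * N ^ 4 / K ^ 42 * 1 := by
      rw [div_pow, mul_pow, he03]
      field_simp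
    have e2 : (2 * K * lam * N) ^ 2 * (4 * K * k4 * N * N) =
        lam ^ 2 * N ^ 4 / K ^ 42 * (16 * K ^ 45 * k4) := by
      field_simp
      norm_num
    rw [e1, e2]
    exact mul_le_mul_of_nonneg_left h16 (by positivity)
  · have e1 : 212 * (lam ^ 2 * e0 / K ^ 14) = lam ^ 2 * e0 / K ^ 14 * 212 := by ring
    have e2 : lam ^ 2 / (4 * K) * (e0 / (4 * K)) = lam ^ 2 * e0 / K ^ 14 * (K ^ 12 / 16) := by
      field_simp
      norm_num
    rw [e1, e2]
    apply mul_le_mul_of_nonneg_left _ (by positivity)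
    have : (2 : ℝ) ^ 12 ≤ K ^ 12 := pow_le_pow_left₀ (by norm_num) hK 12
    norm_num at this
    linarith

/-- arithmetic for `Z` -/
theorem arithZ {K lam N e0 : ℝ} (hK : 2 ≤ K) (hlam : 0 < lam) (hN : 0 < N)
    (hNlam : 8 * K ^ 45 * lam ≤ N) (he0 : 0 < e0) (he03 : e0 ^ 3 = (N / lam) ^ 4) :
    2 * K * N / lam ≤ e0 / K ^ 11 ∧
    (2 * K * N / lam) ^ 2 * (N / (lam * K ^ 38) * (K * N / lam)) ≤ (e0 / K ^ 11) ^ 3 ∧
    212 * (e0 / K ^ 11) ≤ e0 / (4 * K) ∧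
    N * (lam / K ^ 41) ≤ lam ^ 2 / (4 * K) * (N / (lam * K ^ 38)) := by
  have hK0 : 0 < K := by linarith
  have h4K : (4 : ℝ) ≤ K ^ 2 := by nlinarith
  refine ⟨?_, ?_, ?_, ?_⟩
  · rw [← pow_le_pow_iff_left₀ (by positivity) (by positivity) (three_ne_zero)]
    have e1 : (e0 / K ^ 11) ^ 3 = N ^ 3 / (lam ^ 4 * K ^ 33) * N := by
      rw [div_pow, he03]
      field_simp
    have e2 : (2 * K * N / lam) ^ 3 = N ^ 3 / (lam ^ 4 * K ^ 33) * (8 * K ^ 36 * lam) := by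
      field_simp
      norm_num
    rw [e1, e2]
    refine mul_le_mul_of_nonneg_left (le_trans ?_ hNlam) (by positivity)
    have : K ^ 36 ≤ K ^ 45 := pow_le_pow_right₀ (by linarith) (by norm_num)
    nlinarith
  · have e1 : (e0 / K ^ 11) ^ 3 = N ^ 4 / (lam ^ 4 * K ^ 35) * K ^ 2 := by
      rw [div_pow, he03]
      field_simp
    have e2 : (2 * K * N / lam) ^ 2 * (N / (lam * K ^ 38) * (K * N / lam)) =
        N ^ 4 / (lam ^ 4 * K ^ 35) * 4 := by
      field_simp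
      norm_num
    rw [e1, e2]
    exact mul_le_mul_of_nonneg_left h4K (by positivity)
  · have e1 : 212 * (e0 / K ^ 11) = e0 / K ^ 11 * 212 := by ring
    have e2 : e0 / (4 * K) = e0 / K ^ 11 * (K ^ 10 / 4) := by
      field_simp
    rw [e1, e2]
    apply mul_le_mul_of_nonneg_left _ (by positivity)
    have : (2 : ℝ) ^ 10 ≤ K ^ 10 := pow_le_pow_left₀ (by norm_num) hK 10
    norm_num at this
    linarith
  · have e1 : N * (lam / K ^ 41) = N * lam / K ^ 41 * 1 := by ring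
    have e2 : lam ^ 2 / (4 * K) * (N / (lam * K ^ 38)) = N * lam / K ^ 41 * (K ^ 2 / 4) := by
      field_simp
    rw [e1, e2]
    apply mul_le_mul_of_nonneg_left _ (by positivity)
    linarith

open Classical in
/-- few windows lose much through the exceptional points -/
theorem few_WX {K k3 k4 Kp ks Kpp lam N del : ℝ} {P : Finset Pt} {k : ℕ} {Q : Finset Pt}
    {W : Finset ℕ} {a b be : ℕ → ℝ} {T : ℕ → Finset Pt} (hK : 2 ≤ K) (hk4 : 0 < k4)
    (h16 : 16 * K ^ 45 * k4 ≤ 1) (hlam1 : 1 ≤ lam) (hNlam : 8 * K ^ 45 * lam ≤ N)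
    (h : NW2 K k3 Kp ks Kpp lam N del P k Q W a b be T) (X : Finset Pt)
    (hX4 : (#X : ℝ) ≤ 4 * K * k4 * N) (WX : Finset ℕ) (hWX : WX ⊆ W)
    (hlost : ∀ w ∈ WX, (N / lam) ^ (4 / 3 : ℝ) / (4 * K) ≤
      (#{e ∈ ET P k Q a b T w | e.1 ∈ X ∨ e.2 ∈ X} : ℝ)) :
    (#WX : ℝ) ≤ lam ^ 2 / (4 * K) := by
  have hK0 : 0 < K := by linarith
  have hlam : 0 < lam := by linarith
  have hN : 0 < N := lt_of_lt_of_le (by positivity) hNlam
  have he0pos : 0 < (N / lam) ^ (4 / 3 : ℝ) := by positivity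
  have he03 := e0_cube hN hlam
  obtain ⟨a1, a2, a3⟩ := arithX hK h16 hk4 hlam hN hNlam he0pos he03
  have hTQ : (#(Tch P k Q Set.univ) : ℝ) ≤ N := by
    refine le_trans ?_ h.cardQ
    unfold Tch
    exact_mod_cast Finset.card_le_card (Finset.filter_subset _ _)
  have hM : (#(U.H792.EdY P k Q Set.univ (X ∩ Tch P k Q Set.univ)) : ℝ) ≤
      212 * (lam ^ 2 * (N / lam) ^ (4 / 3 : ℝ) / K ^ 14) := by
    have hY : X ∩ Tch P k Q Set.univ ⊆ Tch P k Q Set.univ := Finset.inter_subset_right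
    have hM0 : 0 ≤ lam ^ 2 * (N / lam) ^ (4 / 3 : ℝ) / K ^ 14 := by positivity
    refine deyY3 (B := 2 * K * lam * N) (y := 4 * K * k4 * N) (t := N)
      (M := lam ^ 2 * (N / lam) ^ (4 / 3 : ℝ) / K ^ 14) P k Q Set.univ h.good h.sub
      Set.ordConnected_univ (X ∩ Tch P k Q Set.univ) hY ?_ ?_ hTQ hM0 a1 a2
    · have e1 := h.glob
      have hl : 1 ≤ K * lam := one_le_mul_of_one_le_of_one_le (by linarith) hlam1
      have e2 : N ≤ K * (lam * N) := by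
        rw [← mul_assoc]
        exact le_mul_of_one_le_left hN.le hl
      have e3 : 2 * K * lam * N = K * (lam * N) + K * (lam * N) := by ring
      rw [e3]
      exact add_le_add (hTQ.trans e2) e1
    · refine le_trans ?_ hX4
      exact_mod_cast Finset.card_le_card Finset.inter_subset_left
  have hlost' : (∑ w ∈ W, (#{e ∈ ET P k Q a b T w | e.1 ∈ X ∨ e.2 ∈ X} : ℝ)) ≤
      #(U.H792.EdY P k Q Set.univ (X ∩ Tch P k Q Set.univ)) := by
    exact_mod_cast lostX h X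
  have hS : (∑ w ∈ W, (#{e ∈ ET P k Q a b T w | e.1 ∈ X ∨ e.2 ∈ X} : ℝ)) ≤
      lam ^ 2 / (4 * K) * ((N / lam) ^ (4 / 3 : ℝ) / (4 * K)) := (hlost'.trans hM).trans a3
  have h1 := markov (W := W) (θ := (N / lam) ^ (4 / 3 : ℝ) / (4 * K))
    (S := lam ^ 2 / (4 * K) * ((N / lam) ^ (4 / 3 : ℝ) / (4 * K)))
    (fun w => (#{e ∈ ET P k Q a b T w | e.1 ∈ X ∨ e.2 ∈ X} : ℝ))
    (fun _ _ => Nat.cast_nonneg _) hS WX hWX hlost
  have h2 : 0 < (N / lam) ^ (4 / 3 : ℝ) / (4 * K) := div_pos he0pos (by linarith)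
  exact le_of_mul_le_mul_right h1 h2

open Classical in
/-- few windows contain many inactive points -/
theorem few_WZ {K k3 Kp ks Kpp lam N del : ℝ} {P : Finset Pt} {k : ℕ} {Q : Finset Pt}
    {W : Finset ℕ} {a b be : ℕ → ℝ} {T : ℕ → Finset Pt} (hK : 2 ≤ K) (hlam1 : 1 ≤ lam)
    (hNlam : 8 * K ^ 45 * lam ≤ N)
    (h : NW2 K k3 Kp ks Kpp lam N del P k Q W a b be T) (Z : Finset Pt) (hZQ : Z ⊆ Q)
    (hZ : ∀ q ∈ Z, K ^ 41 * (#{v ∈ W | q ∈ T v} : ℝ) ≤ lam) (WZ : Finset ℕ) (hWZ : WZ ⊆ W)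
    (hlost : ∀ w ∈ WZ, N / (lam * K ^ 38) ≤ (#(T w ∩ Z) : ℝ)) :
    (#WZ : ℝ) ≤ lam ^ 2 / (4 * K) := by
  have hK0 : 0 < K := by linarith
  have hlam : 0 < lam := by linarith
  have hN : 0 < N := lt_of_lt_of_le (by positivity) hNlam
  have he0pos : 0 < (N / lam) ^ (4 / 3 : ℝ) := by positivity
  have he03 := e0_cube hN hlam
  obtain ⟨_, _, _, a4⟩ := arithZ hK hlam hN hNlam he0pos he03
  have hdc : ∑ w ∈ W, (#(T w ∩ Z) : ℝ) = ∑ q ∈ Z, (#{v ∈ W | q ∈ T v} : ℝ) := by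
    have h3 : ∀ w ∈ W, (#(T w ∩ Z) : ℝ) = ∑ q ∈ Z, if q ∈ T w then (1 : ℝ) else 0 := by
      intro w _
      rw [Finset.sum_boole]
      congr 2
      ext q
      rw [Finset.mem_inter, Finset.mem_filter (s := Z)]
      tauto
    rw [Finset.sum_congr rfl h3, Finset.sum_comm]
    refine Finset.sum_congr rfl fun q _ => ?_
    rw [Finset.sum_boole]
  have hb : ∑ q ∈ Z, (#{v ∈ W | q ∈ T v} : ℝ) ≤ N * (lam / K ^ 41) := by
    calc ∑ q ∈ Z, (#{v ∈ W | q ∈ T v} : ℝ) ≤ ∑ q ∈ Z, lam / K ^ 41 := by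
          refine Finset.sum_le_sum fun q hq => ?_
          have := hZ q hq
          rw [le_div_iff₀ (by positivity)]
          linarith
      _ = #Z * (lam / K ^ 41) := by rw [Finset.sum_const, nsmul_eq_mul]
      _ ≤ N * (lam / K ^ 41) := by
          apply mul_le_mul_of_nonneg_right _ (by positivity)
          refine le_trans ?_ h.cardQ
          exact_mod_cast Finset.card_le_card hZQ
  have h1 : (#WZ : ℝ) * (N / (lam * K ^ 38)) ≤ lam ^ 2 / (4 * K) * (N / (lam * K ^ 38)) :=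
    markov (fun w => (#(T w ∩ Z) : ℝ)) (fun _ _ => Nat.cast_nonneg _)
      ((hdc.le.trans hb).trans a4) WZ hWZ hlost
  have h2 : 0 < N / (lam * K ^ 38) := by positivity
  exact le_of_mul_le_mul_right h1 h2

open Classical in
/-- windows with few inactive points lose little -/
theorem lostZ {K k3 Kp ks Kpp lam N del : ℝ} {P : Finset Pt} {k : ℕ} {Q : Finset Pt}
    {W : Finset ℕ} {a b be : ℕ → ℝ} {T : ℕ → Finset Pt} (hK : 2 ≤ K) (hlam1 : 1 ≤ lam)
    (hNlam : 8 * K ^ 45 * lam ≤ N)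
    (h : NW2 K k3 Kp ks Kpp lam N del P k Q W a b be T) (Z : Finset Pt) (w : ℕ) (hw : w ∈ W)
    (hZ : (#(T w ∩ Z) : ℝ) ≤ N / (lam * K ^ 38)) :
    (#{e ∈ ET P k Q a b T w | e.1 ∈ Z ∨ e.2 ∈ Z} : ℝ) ≤
      (N / lam) ^ (4 / 3 : ℝ) / (4 * K) := by
  have hK0 : 0 < K := by linarith
  have hlam : 0 < lam := by linarith
  have hN : 0 < N := lt_of_lt_of_le (by positivity) hNlam
  have he0pos : 0 < (N / lam) ^ (4 / 3 : ℝ) := by positivity
  have he03 := e0_cube hN hlam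
  obtain ⟨a1, a2, a3, _⟩ := arithZ hK hlam hN hNlam he0pos he03
  have ht : (#(Tch P k Q (Set.Icc (a w) (b w))) : ℝ) ≤ K * N / lam := by
    rw [le_div_iff₀ hlam]
    linarith [h.tch w hw]
  have hb : (#(EdBd P k Q (Set.Icc (a w) (b w))) : ℝ) ≤ K * N / lam := by
    rw [le_div_iff₀ hlam]
    linarith [h.bd w hw]
  have hM : (#(U.H792.EdY P k Q (Set.Icc (a w) (b w)) (T w ∩ Z)) : ℝ) ≤
      212 * ((N / lam) ^ (4 / 3 : ℝ) / K ^ 11) := by
    refine deyY3 P k Q _ h.good h.sub Set.ordConnected_Icc _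
      (Finset.inter_subset_left.trans (h.subT w hw)) (B := 2 * K * N / lam)
      (y := N / (lam * K ^ 38)) (t := K * N / lam) ?_ hZ ht (by positivity) a1 a2
    have : 2 * K * N / lam = K * N / lam + K * N / lam := by ring
    linarith
  refine le_trans ?_ (hM.trans a3)
  have hsub : ({e ∈ ET P k Q a b T w | e.1 ∈ Z ∨ e.2 ∈ Z} : Finset (Pt × Pt)) ⊆
      U.H792.EdY P k Q (Set.Icc (a w) (b w)) (T w ∩ Z) := by
    intro e he
    rw [Finset.mem_filter] at he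
    unfold ET EW at he
    rw [Finset.mem_filter] at he
    rw [U.H792.mem_EdY]
    refine ⟨he.1.1, ?_⟩
    rcases he.2 with h5 | h5
    · left; exact Finset.mem_inter.2 ⟨he.1.2.1, h5⟩
    · right; exact Finset.mem_inter.2 ⟨he.1.2.2, h5⟩
  exact_mod_cast Finset.card_le_card hsub

open Classical in
/-- the exceptional points for NC-x -/
theorem exc_pts {K k3 k4 Kp ks Kpp lam N del : ℝ} {P : Finset Pt} {k : ℕ} {Q : Finset Pt}
    {W : Finset ℕ} {a b be : ℕ → ℝ} {T : ℕ → Finset Pt} (hK : 2 ≤ K) (hk4 : 0 < k4)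
    (hk34 : k3 = k4 ^ 2) (h26 : 26 * K ≤ Kp)
    (hks : 0 < ks) (h136 : 136 * (ks * Kp) < k3) (hKpp : 0 < Kpp) (hlam : 0 < lam) (hN : 0 < N)
    (h : NW2 K k3 Kp ks Kpp lam N del P k Q W a b be T) :
    ∃ X ⊆ Q, (#X : ℝ) ≤ 4 * K * k4 * N ∧ ∀ q ∈ Q, q ∉ X → ∀ t : ℝ,
      (#{v ∈ W | q ∈ T v ∧ t ≤ a v ∧ a v ≤ t + 1 / Kpp} : ℝ) ≤ k4 * lam := by
  have hK0 : 0 < K := by linarith
  have hKp0 : 0 < Kp := by linarith
  have hKp1 : 1 ≤ Kp := by linarith
  have hd := h.del0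
  have hk3 : 0 < k3 := by rw [hk34]; positivity
  have hDM : 2 * (ks * lam ^ 2) * (4 * (2 * del) / (1 / (2 * Kp) * del) + 1) <
      (k4 * lam / 2) ^ 2 := by
    have e1 : 4 * (2 * del) / (1 / (2 * Kp) * del) + 1 = 16 * Kp + 1 := by
      field_simp
      ring
    rw [e1]
    have e2 : 2 * (ks * lam ^ 2) * (16 * Kp + 1) ≤ 34 * (ks * Kp) * lam ^ 2 := by
      have h3 : ks * lam ^ 2 * 1 ≤ ks * lam ^ 2 * Kp :=
        mul_le_mul_of_nonneg_left hKp1 (by positivity)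
      linarith
    have e3 : 34 * (ks * Kp) * lam ^ 2 < k3 / 4 * lam ^ 2 :=
      mul_lt_mul_of_pos_right (by linarith) (by positivity)
    have e4 : (k4 * lam / 2) ^ 2 = k3 / 4 * lam ^ 2 := by rw [hk34]; ring
    rw [e4]
    linarith
  obtain ⟨X, hXQ, hXcard, hXnc⟩ := ncx W a be T Q (δ := del) (s := 1 / (2 * Kp)) (r' := 2 * del)
    (n := k3 * N / lam) (ℓ := 1 / Kpp) (M := ks * lam ^ 2) (D := k4 * lam / 2) hd (by positivity)
    (by positivity) (by positivity) (by positivity) (by positivity) (nw2_sep h)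
    (nw2_near h) (fun w hw q _ => nw2_few hlam hKp0 h w hw q.1) h.ncT hDM
  refine ⟨X, hXQ, ?_, ?_⟩
  · have e1 : k4 * lam / 2 * #X ≤ 2 * (k3 * N / lam) * (K * lam ^ 2) :=
      hXcard.trans (mul_le_mul_of_nonneg_left h.cardW (by positivity))
    have e2 : 2 * (k3 * N / lam) * (K * lam ^ 2) = (k4 * lam / 2) * (4 * K * k4 * N) := by
      rw [hk34]; field_simp; norm_num
    rw [e2] at e1
    exact le_of_mul_le_mul_left e1 (by positivity)
  · intro q hq hqX t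
    have := hXnc q hq hqX t
    linarith

theorem two_mul_k {K : ℝ} (hK : 2 ≤ K) {m n : ℕ} (h : m ≤ n) : K ^ m ≤ K ^ n :=
  pow_le_pow_right₀ (by linarith) h

open Classical in
/-- **the core of `StS67`** -/
theorem s67_core {K k3 k4 Kp ks Kpp lam N del : ℝ} {P : Finset Pt} {k : ℕ} {Q : Finset Pt}
    {W : Finset ℕ} {a b be : ℕ → ℝ} {T : ℕ → Finset Pt} (hK : 2 ≤ K) (hk4 : 0 < k4)
    (hk34 : k3 = k4 ^ 2) (h16 : 16 * K ^ 45 * k4 ≤ 1) (h2k : 2 * K * k3 ≤ 1) (h26 : 26 * K ≤ Kp)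
    (hks : 0 < ks) (h136 : 136 * (ks * Kp) < k3) (hKpp : 0 < Kpp) (hlam1 : 1 ≤ lam)
    (hNlam : 8 * K ^ 45 * lam ≤ N) (h : NW2 K k3 Kp ks Kpp lam N del P k Q W a b be T) :
    ∃ (W' : Finset ℕ) (T' : ℕ → Finset Pt),
      NW3 (K ^ 41) k3 k4 Kp ks Kpp lam N del P k Q W W' a b be T T' := by
  have hK0 : 0 < K := by linarith
  have hlam : 0 < lam := by linarith
  have hN : 0 < N := lt_of_lt_of_le (by positivity) hNlam
  set e0 : ℝ := (N / lam) ^ (4 / 3 : ℝ) with he0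
  have he0pos : 0 < e0 := by positivity
  obtain ⟨X, hXQ, hX4, hXnc⟩ := exc_pts hK hk4 hk34 h26 hks h136 hKpp hlam hN h
  -- inactive points
  set Z : Finset Pt := {q ∈ Q | K ^ 41 * (#{v ∈ W | q ∈ T v} : ℝ) < lam} with hZ
  have hZQ : Z ⊆ Q := Finset.filter_subset _ _
  have hZle : ∀ q ∈ Z, K ^ 41 * (#{v ∈ W | q ∈ T v} : ℝ) ≤ lam :=
    fun q hq => (Finset.mem_filter.1 hq).2.le
  set T' : ℕ → Finset Pt := fun w => {q ∈ T w | q ∉ X ∧ q ∉ Z} with hT'
  set WX : Finset ℕ :=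
    {w ∈ W | e0 / (4 * K) ≤ (#{e ∈ ET P k Q a b T w | e.1 ∈ X ∨ e.2 ∈ X} : ℝ)} with hWX
  set WZ : Finset ℕ := {w ∈ W | N / (lam * K ^ 38) ≤ (#(T w ∩ Z) : ℝ)} with hWZ
  have hWXc : (#WX : ℝ) ≤ lam ^ 2 / (4 * K) :=
    few_WX hK hk4 h16 hlam1 hNlam h X hX4 WX (Finset.filter_subset _ _)
      (fun w hw => (Finset.mem_filter.1 hw).2)
  have hWZc : (#WZ : ℝ) ≤ lam ^ 2 / (4 * K) :=
    few_WZ hK hlam1 hNlam h Z hZQ hZle WZ (Finset.filter_subset _ _)
      (fun w hw => (Finset.mem_filter.1 hw).2)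
  have hK41 : 2 * K ≤ K ^ 41 := by
    have h1 : K ^ 2 ≤ K ^ 41 := two_mul_k hK (by norm_num)
    have h2 : 2 * K ≤ K ^ 2 := by rw [sq]; exact mul_le_mul_of_nonneg_right hK hK0.le
    exact h2.trans h1
  have hKK41 : K ≤ K ^ 41 := by linarith
  set W' : Finset ℕ := (W \ WX) \ WZ with hW'
  have hW'W : ∀ w ∈ W', w ∈ W ∧ w ∉ WX ∧ w ∉ WZ := by
    intro w hw
    rw [hW', Finset.mem_sdiff, Finset.mem_sdiff] at hw
    exact ⟨hw.1.1, hw.1.2, hw.2⟩
  refine ⟨W', T', nw2_mono hKK41 hlam.le h, fun w hw => (hW'W w hw).1, ?_, ?_, ?_, ?_, ?_, ?_⟩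
  · -- cardW'
    have h1 := Finset.le_card_sdiff WX W
    have h2 := Finset.le_card_sdiff WZ (W \ WX)
    have h3 : (#W : ℝ) ≤ #W' + #WX + #WZ := by
      have : #W ≤ #W' + #WX + #WZ := by rw [hW']; omega
      exact_mod_cast this
    have h4 : lam ^ 2 / K ≤ #W := by
      rw [div_le_iff₀ hK0]
      linarith [h.cardW']
    have h5 : lam ^ 2 / K = lam ^ 2 / (4 * K) + lam ^ 2 / (4 * K) + lam ^ 2 / (2 * K) := by
      field_simp
      norm_num
    have h6 : lam ^ 2 / (2 * K) ≤ #W' := by linarith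
    rw [div_le_iff₀ (by positivity)] at h6
    calc lam ^ 2 ≤ #W' * (2 * K) := h6
      _ = 2 * K * #W' := by ring
      _ ≤ K ^ 41 * #W' := mul_le_mul_of_nonneg_right hK41 (by positivity)
  · -- third
    intro x hx0 hx1 ρ hρ
    exact third_field hK hlam hN h2k h26 h x hx0 hx1 ρ hρ
  · -- subT'
    intro w _
    exact Finset.filter_subset _ _
  · -- edT'
    intro w hw
    obtain ⟨hwW, hwX, hwZ⟩ := hW'W w hw
    have hX1 : (#{e ∈ ET P k Q a b T w | e.1 ∈ X ∨ e.2 ∈ X} : ℝ) < e0 / (4 * K) := by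
      by_contra hcon
      exact hwX (Finset.mem_filter.2 ⟨hwW, not_lt.1 hcon⟩)
    have hZ1 : (#(T w ∩ Z) : ℝ) ≤ N / (lam * K ^ 38) := by
      by_contra hcon
      exact hwZ (Finset.mem_filter.2 ⟨hwW, (not_le.1 hcon).le⟩)
    have hZ2 := lostZ hK hlam1 hNlam h Z w hwW hZ1
    rw [← he0] at hZ2
    have hed := h.edT w hwW
    rw [← he0] at hed
    have hsub : ET P k Q a b T w ⊆ ET P k Q a b T' w ∪
        {e ∈ ET P k Q a b T w | e.1 ∈ X ∨ e.2 ∈ X} ∪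
        {e ∈ ET P k Q a b T w | e.1 ∈ Z ∨ e.2 ∈ Z} := by
      intro e he
      rw [Finset.mem_union, Finset.mem_union, Finset.mem_filter, Finset.mem_filter]
      by_cases h1 : e.1 ∈ X ∨ e.2 ∈ X
      · left; right; exact ⟨he, h1⟩
      by_cases h2 : e.1 ∈ Z ∨ e.2 ∈ Z
      · right; exact ⟨he, h2⟩
      left; left
      rw [not_or] at h1 h2
      unfold ET at he ⊢
      rw [Finset.mem_filter] at he ⊢
      refine ⟨he.1, ?_, ?_⟩
      · exact Finset.mem_filter.2 ⟨he.2.1, h1.1, h2.1⟩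
      · exact Finset.mem_filter.2 ⟨he.2.2, h1.2, h2.2⟩
    have hc := (Finset.card_le_card hsub).trans ((Finset.card_union_le _ _).trans
      (Nat.add_le_add_right (Finset.card_union_le _ _) _))
    have hc' : (#(ET P k Q a b T w) : ℝ) ≤ #(ET P k Q a b T' w) +
        #{e ∈ ET P k Q a b T w | e.1 ∈ X ∨ e.2 ∈ X} +
        #{e ∈ ET P k Q a b T w | e.1 ∈ Z ∨ e.2 ∈ Z} := by exact_mod_cast hc
    have h4 : e0 / K ≤ #(ET P k Q a b T w) := by
      rw [div_le_iff₀ hK0]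
      linarith
    have h5 : e0 / K = e0 / (4 * K) + e0 / (4 * K) + e0 / (2 * K) := by
      field_simp
      norm_num
    have h6 : e0 / (2 * K) ≤ #(ET P k Q a b T' w) := by linarith
    rw [div_le_iff₀ (by positivity)] at h6
    calc e0 ≤ #(ET P k Q a b T' w) * (2 * K) := h6
      _ = 2 * K * #(ET P k Q a b T' w) := by ring
      _ ≤ K ^ 41 * #(ET P k Q a b T' w) := mul_le_mul_of_nonneg_right hK41 (by positivity)
  · -- ncX
    intro w hw q hq t
    obtain ⟨hwW, _, _⟩ := hW'W w hw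
    have hq' := Finset.mem_filter.1 hq
    exact hXnc q (nw2_subQ h w hwW hq'.1) hq'.2.1 t
  · -- act
    intro w hw q hq
    obtain ⟨hwW, _, _⟩ := hW'W w hw
    have hq' := Finset.mem_filter.1 hq
    by_contra hcon
    exact hq'.2.2 (Finset.mem_filter.2 ⟨nw2_subQ h w hwW hq'.1, not_le.1 hcon⟩)

/-- **S67** (steps 6, 7) -/
theorem stS67 : StS67 := by
  refine ⟨41, by norm_num, fun c => ⟨300 + 82 * c, ?_⟩⟩
  intro K k3 Kp ks Kpp lam N del P k Q W₀ a b be T hK hk3 hKk3 h3Kp hks hKpks hksKpp hKpplam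
    hlamN h
  set c' : ℕ := 300 + 82 * c with hc'
  have hK0 : 0 < K := by linarith
  have hK1 : 1 ≤ K := by linarith
  -- (f1)
  have f1 : K ^ c' ≤ Kp := by
    have h1 : K ^ c' * k3 ≤ Kp * k3 := by linarith
    exact le_of_mul_le_mul_right h1 hk3
  have hKpow : ∀ m : ℕ, m ≤ 300 → K ^ m ≤ Kp := fun m hm =>
    (two_mul_k hK (by omega)).trans f1
  have hKp1 : 1 ≤ Kp := by simpa using hKpow 0 (by norm_num)
  have hKp0 : 0 < Kp := by linarith
  have h2pow : ∀ m : ℕ, (2 : ℝ) ^ m ≤ K ^ m := fun m => pow_le_pow_left₀ (by norm_num) hK m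
  -- `K ^ m * k3 ≤ 1`
  have hk3m : ∀ m : ℕ, m ≤ c' → K ^ m * k3 ≤ 1 := fun m hm =>
    (mul_le_mul_of_nonneg_right (two_mul_k hK hm) hk3.le).trans hKk3
  set k4 : ℝ := Real.sqrt k3 with hk4
  have hk40 : 0 < k4 := Real.sqrt_pos.2 hk3
  have hk34 : k3 = k4 ^ 2 := (Real.sq_sqrt hk3.le).symm
  -- `K ^ m * k4 ≤ 1`
  have hk4m : ∀ m : ℕ, 2 * m ≤ c' → K ^ m * k4 ≤ 1 := by
    intro m hm
    have h1 : (K ^ m * k4) ^ 2 ≤ 1 ^ 2 := by
      rw [mul_pow, ← hk34, ← pow_mul, one_pow]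
      exact hk3m _ (by omega)
    exact le_of_sq_le_sq h1 zero_le_one
  have h16 : 16 * K ^ 45 * k4 ≤ 1 := by
    have h1 : (16 : ℝ) ≤ K ^ 4 := by
      have := h2pow 4
      norm_num at this
      exact this
    calc 16 * K ^ 45 * k4 ≤ K ^ 4 * K ^ 45 * k4 := by
          apply mul_le_mul_of_nonneg_right _ hk40.le
          exact mul_le_mul_of_nonneg_right h1 (by positivity)
      _ = K ^ 49 * k4 := by ring
      _ ≤ 1 := hk4m 49 (by omega)
  have h2k : 2 * K * k3 ≤ 1 := by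
    calc 2 * K * k3 ≤ K * K * k3 := by
          apply mul_le_mul_of_nonneg_right _ hk3.le
          exact mul_le_mul_of_nonneg_right hK hK0.le
      _ = K ^ 2 * k3 := by ring
      _ ≤ 1 := hk3m 2 (by omega)
  have h26 : 26 * K ≤ Kp := by
    have h1 : (32 : ℝ) ≤ K ^ 5 := by
      have := h2pow 5
      norm_num at this
      exact this
    calc 26 * K ≤ K ^ 5 * K := mul_le_mul_of_nonneg_right (by linarith) hK0.le
      _ = K ^ 6 := by ring
      _ ≤ Kp := hKpow 6 (by norm_num)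
  have h256 : (256 : ℝ) ≤ Kp := by
    have := h2pow 8
    norm_num at this
    exact this.trans (hKpow 8 (by norm_num))
  have h136 : 136 * (ks * Kp) < k3 := by
    have h1 : ks * Kp ^ 3 ≤ 1 := by
      have : Kp ^ 3 ≤ Kp ^ c' := pow_le_pow_right₀ hKp1 (by omega)
      calc ks * Kp ^ 3 ≤ ks * Kp ^ c' := mul_le_mul_of_nonneg_left this hks.le
        _ = Kp ^ c' * ks := by ring
        _ ≤ 1 := hKpks
    have h2 : 256 * (ks * Kp) * Kp ≤ k3 * Kp := by
      calc 256 * (ks * Kp) * Kp ≤ Kp * (ks * Kp) * Kp := by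
            apply mul_le_mul_of_nonneg_right _ hKp0.le
            exact mul_le_mul_of_nonneg_right h256 (by positivity)
        _ = ks * Kp ^ 3 := by ring
        _ ≤ k3 * Kp := h1.trans h3Kp
    have h3 : 256 * (ks * Kp) ≤ k3 := le_of_mul_le_mul_right h2 hKp0
    have h4 : 0 < ks * Kp := by positivity
    linarith
  have hKpp0 : 0 < Kpp := by
    by_contra hcon
    have : ks * Kpp ≤ 0 := mul_nonpos_of_nonneg_of_nonpos hks.le (not_lt.1 hcon)
    linarith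
  have hKpKpp : Kp ≤ Kpp := by
    have h1 : Kp ^ c' * ks ≤ Kpp * ks := by linarith
    have h2 : Kp ^ c' ≤ Kpp := le_of_mul_le_mul_right h1 hks
    have h3 : Kp ^ 1 ≤ Kp ^ c' := pow_le_pow_right₀ hKp1 (by omega)
    rw [pow_one] at h3
    exact h3.trans h2
  have hKplam : Kp ≤ lam := by
    have h3 : Kpp ^ 1 ≤ Kpp ^ c' := pow_le_pow_right₀ (hKp1.trans hKpKpp) (by omega)
    rw [pow_one] at h3
    exact hKpKpp.trans (h3.trans hKpplam)
  have hlam1 : 1 ≤ lam := hKp1.trans hKplam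
  have hNlam : 8 * K ^ 45 * lam ≤ N := by
    have h1 : (8 : ℝ) ≤ K ^ 3 := by
      have := h2pow 3
      norm_num at this
      exact this
    have h2 : 8 * K ^ 45 ≤ lam := by
      calc 8 * K ^ 45 ≤ K ^ 3 * K ^ 45 := mul_le_mul_of_nonneg_right h1 (by positivity)
        _ = K ^ 48 := by ring
        _ ≤ lam := (hKpow 48 (by norm_num)).trans hKplam
    calc 8 * K ^ 45 * lam ≤ lam * lam := mul_le_mul_of_nonneg_right h2 (by linarith)
      _ = lam ^ 2 := by ring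
      _ ≤ lam ^ 5 := pow_le_pow_right₀ hlam1 (by norm_num)
      _ ≤ N := hlamN
  obtain ⟨W', T', hNW3⟩ := s67_core hK hk40 hk34 h16 h2k h26 hks h136 hKpp0 hlam1 hNlam h
  refine ⟨k4, W', T', hk40, ?_, hNW3⟩
  rw [← pow_mul]
  exact hk4m _ (by omega)

end Vale.Agent.P065.H277
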