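import Vale.Agent.P065.H277.Group
import Vale.Agent.P065.UB.H666.Mult

/-!
# P065, upper bound, line U: LEMMA M, unconditional (helper277, from helper666 and `stGroup`)
-/

set_option autoImplicit false

namespace Vale.Agent.P065.H277.Group

/-- **LEMMA M** -/
theorem stMult : Vale.Agent.P065.UB.H410.StMult :=
  Vale.Agent.P065.UB.H666.Mult.stMult_of stGroup

end Vale.Agent.P065.H277.Group
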